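import Vale.Agent.P157F.Sph.FreeRoot
import Vale.Agent.P157.Low.SphBorel
import Vale.Agent.P157.Low.SmCalc
import Vale.Agent.P166F.Up.Dev.Mad
import Vale.Agent.P166F.Up.Dev.Root

/-!
P157: the chosen points of each sphere: their pressure and their free value.
-/

namespace Vale.Agent.P157F

open MeasureTheory ProbabilityTheory Filter
open scoped RealInnerProductSpace Topology
open Vale.Agent.P157 (Pot Sph sphereMeasure isProbabilityMeasure_sphereMeasure shellC spherePressure)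
open Vale.Agent.P157.Low (Sp Smf qmult qlogs lv incr sham sZ spherePressure_eq)
open Vale.Agent.P166F (Levels seqOf nestRoot lsum)
open Vale.Agent.P166F.Dev (abs_lsum_sub_le continuous_lsum)

variable {N k : ℕ}

/-- The accuracy of the points in dimension `N + 1`. -/
noncomputable def sphMesh (N : ℕ) : ℝ := (((N : ℝ) + 1) ^ 2)⁻¹

lemma sphMesh_pos (N : ℕ) : 0 < sphMesh N := by unfold sphMesh; positivity

/-- The chosen points of the sphere in dimension `N + 1`. -/
noncomputable def sphConf (N : ℕ) : Up.Conf (N + 1) :=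
  (exists_sphConf (Nat.le_add_left 1 N) (sphMesh_pos N)).choose

lemma sphConf_near (N : ℕ) (G : Sp (N + 1) → ℝ) (L : ℝ) (hL : 0 ≤ L)
    (hG : ∀ u v : Sph (N + 1), |G u - G v| ≤ L * dist u v) :
    |Real.log ((∑ a, Real.exp (G ((sphConf N).pt a))) / Fintype.card (sphConf N).A) -
      Real.log (∫ u : Sph (N + 1), Real.exp (G u) ∂sphereMeasure (N + 1))| ≤ sphMesh N * (L + 1) :=
  (exists_sphConf (Nat.le_add_left 1 N) (sphMesh_pos N)).choose_spec G L hL hG

lemma abs_inner_sub_le (h : Sp N) (u v : Sph N) :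
    |⟪h, (u : Sp N)⟫ - ⟪h, (v : Sp N)⟫| ≤ ‖h‖ * dist u v := by
  rw [← inner_sub_right, Subtype.dist_eq, dist_eq_norm]
  exact abs_real_inner_le_norm _ _

/-- A smooth potential has a bounded derivative. -/
lemma Smf_lip {f : ℝ → ℝ} (hs : Smf f) : ∃ D, 0 ≤ D ∧ ∀ x y, |f x - f y| ≤ D * |x - y| := by
  obtain ⟨D, hD⟩ := hs.bdD_deriv.bdd
  refine ⟨D, (abs_nonneg _).trans (hD 0), fun x y => ?_⟩
  have h := (convex_univ (𝕜 := ℝ) (E := ℝ)).norm_image_sub_le_of_norm_deriv_le (f := f) (C := D)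
    (fun z _ => hs.differentiable z) (fun z _ => by rw [Real.norm_eq_abs]; exact hD z)
    (Set.mem_univ y) (Set.mem_univ x)
  simpa [Real.norm_eq_abs] using h

/-- The pressure of the sphere is below that of the points, up to a vanishing error. -/
theorem spherePressure_le_conf {f : ℝ → ℝ} {B D : ℝ} (hf : Pot f B) (hD0 : 0 ≤ D)
    (hD : ∀ x y, |f x - f y| ≤ D * |x - y|) (N M : ℕ) :
    spherePressure f (N + 1) M ≤ Up.confPressure f (sphConf N) M +
      sphMesh N * (D * M + 1) * ((N : ℝ) + 2) / ((N : ℝ) + 1) := by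
  have hN : 1 ≤ N + 1 := Nat.le_add_left 1 N
  have := isProbabilityMeasure_sphereMeasure hN
  set μ := Measure.pi fun _ : Fin M => stdGaussian (Sp (N + 1)) with hμ
  set C := sphConf N
  set F : (Fin M → Sp (N + 1)) → ℝ := fun g =>
    Real.log ((∑ a, Real.exp (∑ b, f ⟪g b, C.pt a⟫)) / Fintype.card C.A) with hFdef
  set e : (Fin M → Sp (N + 1)) → ℝ := fun g => sphMesh N * (∑ b, D * (‖g b‖ ^ 2 + 1) + 1) with hedef
  have hpt : ∀ g, Real.log (sZ f g) ≤ F g + e g := fun g => by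
    have hL : 0 ≤ ∑ b, D * ‖g b‖ := Finset.sum_nonneg fun b _ => mul_nonneg hD0 (norm_nonneg _)
    have h := (abs_le.1 (sphConf_near N (fun u => ∑ b, f ⟪g b, u⟫) (∑ b, D * ‖g b‖) hL fun u v => by
      rw [← Finset.sum_sub_distrib, Finset.sum_mul]
      refine (Finset.abs_sum_le_sum_abs _ _).trans (Finset.sum_le_sum fun b _ => ?_)
      rw [mul_assoc]
      exact (hD _ _).trans (mul_le_mul_of_nonneg_left (abs_inner_sub_le (g b) u v) hD0))).1
    have hb : ∑ b, D * ‖g b‖ ≤ ∑ b, D * (‖g b‖ ^ 2 + 1) := Finset.sum_le_sum fun b _ =>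
      mul_le_mul_of_nonneg_left (by nlinarith [sq_nonneg (‖g b‖ - 1), norm_nonneg (g b)]) hD0
    have := mul_le_mul_of_nonneg_left (show ∑ b, D * ‖g b‖ + 1 ≤ ∑ b, D * (‖g b‖ ^ 2 + 1) + 1 by
      linarith) (sphMesh_pos N).le
    show Real.log (∫ u : Sph (N + 1), Real.exp (∑ b, f ⟪g b, (u : Sp (N + 1))⟫)
      ∂sphereMeasure (N + 1)) ≤ _
    simp only [hFdef, hedef]
    linarith
  have hsq : ∀ b : Fin M, Integrable (fun g : Fin M → Sp (N + 1) => ‖g b‖ ^ 2) μ ∧
      ∫ g, ‖g b‖ ^ 2 ∂μ = ((N + 1 : ℕ) : ℝ) := fun b => by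
    have hmp := measurePreserving_eval (fun _ : Fin M => stdGaussian (Sp (N + 1))) b
    refine ⟨hmp.integrable_comp_of_integrable (Vale.Agent.P157.integrable_norm_pow 2), ?_⟩
    rw [← Vale.Agent.P157.integral_norm_sq_stdGaussian (N := N + 1), ← hmp.map_eq,
      integral_map hmp.measurable.aemeasurable (Measurable.aestronglyMeasurable (by fun_prop))]
  have hFi : Integrable F μ := by
    refine (integrable_const ((M : ℝ) * B)).mono' ?_ (Eventually.of_forall fun g => ?_)
    · refine (((Finset.measurable_fun_sum _ fun a _ => ?_).div_const _).log).aestronglyMeasurable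
      exact (Finset.measurable_fun_sum _ fun b _ =>
        hf.meas.comp ((measurable_pi_apply b).inner measurable_const)).exp
    · rw [Real.norm_eq_abs]
      have hc : (0 : ℝ) < Fintype.card C.A := by exact_mod_cast Fintype.card_pos
      have hb : ∀ a, |∑ b, f ⟪g b, C.pt a⟫| ≤ (M : ℝ) * B := fun a =>
        (Finset.abs_sum_le_sum_abs _ _).trans ((Finset.sum_le_sum fun b _ => hf.bound _).trans_eq
          (by simp))
      have hpos : 0 < ∑ a, Real.exp (∑ b, f ⟪g b, C.pt a⟫) :=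
        Finset.sum_pos (fun a _ => Real.exp_pos _) Finset.univ_nonempty
      rw [abs_le, Real.le_log_iff_exp_le (div_pos hpos hc), Real.log_le_iff_le_exp (div_pos hpos hc),
        le_div_iff₀ hc, div_le_iff₀ hc]
      constructor
      · calc Real.exp (-((M : ℝ) * B)) * Fintype.card C.A = ∑ _a : C.A, Real.exp (-((M : ℝ) * B)) := by
              simp [mul_comm]
          _ ≤ _ := Finset.sum_le_sum fun a _ => Real.exp_le_exp.2 (abs_le.1 (hb a)).1
      · calc ∑ a, Real.exp (∑ b, f ⟪g b, C.pt a⟫) ≤ ∑ _a : C.A, Real.exp ((M : ℝ) * B) :=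
              Finset.sum_le_sum fun a _ => Real.exp_le_exp.2 (abs_le.1 (hb a)).2
          _ = _ := by simp [mul_comm]
  have hib : ∀ b : Fin M, Integrable (fun g : Fin M → Sp (N + 1) => D * (‖g b‖ ^ 2 + 1)) μ := fun b =>
    ((hsq b).1.add (integrable_const 1)).const_mul D
  have hei0 : Integrable (fun g : Fin M → Sp (N + 1) => ∑ b, D * (‖g b‖ ^ 2 + 1)) μ :=
    integrable_finsetSum _ fun b _ => hib b
  have hei : Integrable e μ := (hei0.add (integrable_const 1)).const_mul _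
  have he : ∫ g, e g ∂μ ≤ sphMesh N * (D * M + 1) * ((N : ℝ) + 2) := by
    simp only [hedef]
    rw [integral_const_mul, integral_add hei0 (integrable_const 1), integral_const,
      probReal_univ, one_smul, integral_finsetSum _ fun b _ => hib b,
      mul_assoc]
    refine mul_le_mul_of_nonneg_left ?_ (sphMesh_pos N).le
    have e1 : ∀ b : Fin M, ∫ g, D * (‖g b‖ ^ 2 + 1) ∂μ = D * ((N : ℝ) + 2) := fun b => by
      rw [integral_const_mul, integral_add (hsq b).1 (integrable_const 1), (hsq b).2, integral_const,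
        probReal_univ, one_smul]
      push_cast; ring
    simp only [e1, Finset.sum_const, Finset.card_univ, Fintype.card_fin, nsmul_eq_mul]
    have : (1 : ℝ) ≤ (N : ℝ) + 2 := by linarith [Nat.cast_nonneg (α := ℝ) N]
    linarith
  rw [spherePressure_eq hN]
  have key := integral_mono (Vale.Agent.P157.Low.integrable_log_sZ hf.meas hf.bound M) (hFi.add hei) hpt
  simp only [Pi.add_apply] at key
  rw [integral_add hFi hei] at key
  show _ ≤ (∫ g, F g ∂μ) / ((N + 1 : ℕ) : ℝ) + _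
  push_cast
  rw [← add_div]
  exact div_le_div_of_nonneg_right (key.trans (add_le_add le_rfl he)) (by positivity)

lemma freeG_eq (C : Up.Conf N) (h : Sp N) :
    Up.freeG C h =
      Real.log ((∑ a, Real.exp (Real.sqrt N * ⟪h, C.pt a⟫)) / Fintype.card C.A) := by
  have hc : (0 : ℝ) < Fintype.card C.A := by exact_mod_cast Fintype.card_pos
  simp only [Up.freeG, Up.confG, Up.Conf.logCard, lsum, Real.exp_add, ← Finset.mul_sum, Real.exp_neg,
    Real.exp_log hc]
  rw [inv_mul_eq_div]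

lemma lip_freeG (C : Up.Conf N) : Vale.Agent.P157.RSB.Lip (Real.sqrt N) (Up.freeG C) := by
  refine ⟨(continuous_lsum.comp (continuous_pi fun a => by fun_prop)).measurable, Real.sqrt_nonneg _,
    fun x y => abs_lsum_sub_le fun a => ?_⟩
  have e : -C.logCard + Real.sqrt N * ⟪x + y, C.pt a⟫ - (-C.logCard + Real.sqrt N * ⟪x, C.pt a⟫) =
      Real.sqrt N * ⟪y, C.pt a⟫ := by rw [inner_add_left]; ring
  rw [e, abs_mul, abs_of_nonneg (Real.sqrt_nonneg _)]
  refine mul_le_mul_of_nonneg_left ((abs_real_inner_le_norm _ _).trans ?_) (Real.sqrt_nonneg _)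
  rw [C.unit, mul_one]

/-- The log-average of the points in a field is below a quadratic. -/
lemma freeG_sphConf_le (N : ℕ) {z ε : ℝ} (hz : 1 ≤ z) (hε : 0 < ε) (hε1 : ε < 1)
    (hC : shellC / (ε ^ 2 * (N + 1 : ℕ)) < 1) (h : Sp (N + 1)) :
    Up.freeG (sphConf N) h ≤ ‖h‖ ^ 2 / 2 * (1 / ((1 - ε) * z) + sphMesh N) +
      (sphMesh N * (((N : ℝ) + 1) / 2 + 1) - Vale.Agent.P157.RSB.shellP (N + 1) z ε) := by
  have hN : 1 ≤ N + 1 := Nat.le_add_left 1 N
  have := isProbabilityMeasure_sphereMeasure hN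
  have hN0 : (0 : ℝ) < ((N + 1 : ℕ) : ℝ) := by positivity
  have hw : 0 < (1 - ε) * z := mul_pos (by linarith) (by linarith)
  set s := Real.sqrt ((N + 1 : ℕ) : ℝ)
  have hs2 : s ^ 2 = ((N + 1 : ℕ) : ℝ) := Real.sq_sqrt hN0.le
  have hs0 : 0 ≤ s := Real.sqrt_nonneg _
  have h1 := (abs_le.1 (sphConf_near N (fun u => s * ⟪h, u⟫) (s * ‖h‖) (by positivity) fun u v => by
    rw [← mul_sub, abs_mul, abs_of_nonneg hs0, mul_assoc]
    exact mul_le_mul_of_nonneg_left (abs_inner_sub_le h u v) hs0)).2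
  have h2 := Vale.Agent.P157.RSB.hBase_sphere_le hN hz hε hε1 hC (s • h)
  have e : Real.log (∫ u : Sph (N + 1), Real.exp (s * ⟪h, (u : Sp (N + 1))⟫) ∂sphereMeasure (N + 1)) =
      Vale.Agent.P157.RSB.hBase (sphereMeasure (N + 1)) (fun _ => 1) Subtype.val (s • h) := by
    simp [Vale.Agent.P157.RSB.hBase, real_inner_smul_left]
  rw [e] at h1
  rw [freeG_eq]
  have e2 : ‖s • h‖ ^ 2 / (2 * ((N + 1 : ℕ) : ℝ) * ((1 - ε) * z)) = ‖h‖ ^ 2 / 2 * (1 / ((1 - ε) * z)) := by
    rw [norm_smul, mul_pow, Real.norm_eq_abs, sq_abs, hs2]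
    field_simp
  have h3 : sphMesh N * (s * ‖h‖) ≤ sphMesh N * (‖h‖ ^ 2 / 2 + ((N : ℝ) + 1) / 2) := by
    refine mul_le_mul_of_nonneg_left ?_ (sphMesh_pos N).le
    have := sq_nonneg (s - ‖h‖)
    push_cast at hs2
    nlinarith
  rw [e2] at h2
  linarith

/-- The tree value of the points is at most the free value of the sphere, to first order. -/
theorem nestRoot_sphConf_le {Z η : ℝ} (hη : 0 < η) :
    ∀ᶠ N : ℕ in atTop, ∀ (m r : Fin (k + 1) → ℝ), Levels m → Monotone r → (∀ l, 0 ≤ r l) →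
      ∀ z, 1 ≤ z → z ≤ Z → 0 < qmult m (incr r) (lv k) z →
      nestRoot k (seqOf m) (fun j _ => seqOf r j) (Up.freeG (sphConf N)) ≤
        ((N : ℝ) + 1) * (sphFree m r z + η) + 1 := by
  set ε := min (1 / 8) (η / (8 * (|Z| + 1))) with hεdef
  have hε : 0 < ε := lt_min (by norm_num) (by positivity)
  have hε8 : ε ≤ 1 / 8 := min_le_left _ _
  have hεZ : ε * (|Z| + 1) ≤ η / 8 := by
    have h := mul_le_mul_of_nonneg_right (min_le_right (1 / 8) (η / (8 * (|Z| + 1))))
      (show (0 : ℝ) ≤ |Z| + 1 by positivity)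
    rwa [show η / (8 * (|Z| + 1)) * (|Z| + 1) = η / 8 by field_simp] at h
  have htM : Tendsto sphMesh atTop (𝓝 0) := by
    unfold sphMesh
    exact tendsto_inv_atTop_zero.comp ((tendsto_pow_atTop two_ne_zero).comp
      (tendsto_atTop_add_const_right _ 1 tendsto_natCast_atTop_atTop))
  have hsc : Tendsto (fun N : ℕ => shellC / (ε ^ 2 * (N + 1 : ℕ))) atTop (𝓝 0) :=
    Tendsto.div_atTop tendsto_const_nhds (Tendsto.const_mul_atTop (by positivity)
      (tendsto_natCast_atTop_atTop.comp (tendsto_add_atTop_nat 1)))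
  filter_upwards [hsc.eventually (gt_mem_nhds (show (0 : ℝ) < 1 / 2 by norm_num)),
    htM.eventually (gt_mem_nhds (show 0 < min (ε / (|Z| + 1)) (η / 2) by positivity))]
    with N hC hM m r hm hr hr0 z hz hzZ hW
  have hz0 : 0 < z := by linarith
  have hzA : z ≤ |Z| := hzZ.trans (le_abs_self Z)
  have hMz : sphMesh N * z ≤ ε := by
    have h := mul_le_mul_of_nonneg_right (hM.le.trans (min_le_left _ _))
      (show (0 : ℝ) ≤ |Z| + 1 by positivity)
    rw [div_mul_cancel₀ _ (by positivity)] at h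
    exact (mul_le_mul_of_nonneg_left (by linarith) (sphMesh_pos N).le).trans h
  have hMη : sphMesh N ≤ η / 2 := hM.le.trans (min_le_right _ _)
  set δ := sphMesh N
  have hδ0 : 0 < δ := sphMesh_pos N
  set q := (1 - δ * z) * (1 - ε) with hq
  have hq0 : 0 < q := mul_pos (by linarith) (by linarith)
  have hq1 : q ≤ 1 := mul_le_one₀ (by linarith [mul_pos hδ0 hz0]) (by linarith) (by linarith)
  set z0 := z / q with hz0def
  have hzz0 : z ≤ z0 := by rw [hz0def, le_div_iff₀ hq0]; exact mul_le_of_le_one_right hz0.le hq1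
  have hb : ∀ h, Up.freeG (sphConf N) h ≤ ‖h‖ ^ 2 / (2 * z) +
      (δ * (((N : ℝ) + 1) / 2 + 1) - Vale.Agent.P157.RSB.shellP (N + 1) z0 ε) := fun h => by
    refine (freeG_sphConf_le N (hz.trans hzz0) hε (by linarith) (by linarith) h).trans_eq ?_
    congr 1
    rw [hz0def, hq]
    have h1 : 1 - δ * z ≠ 0 := by linarith
    have h2 : 1 - ε ≠ 0 := by linarith
    field_simp
    ring
  refine (nestRoot_quad_le (lip_freeG _) hm hr hr0 hb hW).trans ?_
  have hlog : Real.log z ≤ Real.log z0 := Real.log_le_log hz0 hzz0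
  have hz06 : z0 * (1 + ε) - z ≤ 6 * ε * z := by
    rw [hz0def, div_mul_eq_mul_div, sub_le_iff_le_add, div_le_iff₀ hq0]
    have hq2 : 1 - 2 * ε ≤ q := by
      rw [hq]
      nlinarith [mul_le_mul_of_nonneg_right hMz (show (0 : ℝ) ≤ 1 - ε by linarith)]
    calc z * (1 + ε) ≤ (6 * ε * z + z) * (1 - 2 * ε) := by
          nlinarith [mul_pos hz0 hε, mul_le_mul_of_nonneg_left hε8 (mul_pos hz0 hε).le]
      _ ≤ _ := mul_le_mul_of_nonneg_left hq2 (by positivity)
  have hεz : 6 * ε * z ≤ η * 3 / 4 := by nlinarith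
  have hl2 : -Real.log (1 - shellC / (ε ^ 2 * (N + 1 : ℕ))) ≤ 1 := by
    have h := Real.log_le_log (show (0 : ℝ) < 1 / 2 by norm_num)
      (show 1 / 2 ≤ 1 - shellC / (ε ^ 2 * (N + 1 : ℕ)) by linarith)
    rw [one_div, Real.log_inv] at h
    linarith [Real.log_two_lt_d9]
  have hN1 : (0 : ℝ) < (N : ℝ) + 1 := by positivity
  have hA : ((N : ℝ) + 1) / 2 * ((z0 - 1) * (1 + ε) - Real.log z0) ≤
      ((N : ℝ) + 1) / 2 * (z - 1 - Real.log z + η * 3 / 4) :=
    mul_le_mul_of_nonneg_left (by linarith) (by positivity)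
  have hB : δ * (((N : ℝ) + 1) / 2 + 1) ≤ η / 2 * ((N : ℝ) + 1) := by
    nlinarith [mul_le_mul_of_nonneg_right hMη hN1.le, Nat.cast_nonneg (α := ℝ) N]
  simp only [sphFree, Vale.Agent.P157.RSB.shellP]
  push_cast at hl2 ⊢
  linarith [mul_pos hN1 hη]

end Vale.Agent.P157F
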