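import Vale.Agent.P157F.Defs

/-!
P157: the fixed-point equation of the overlaps on the sphere.
-/

namespace Vale.Agent.P157F

open MeasureTheory Vale.Agent.P157.Low Vale.Agent.P166F

variable {k : ℕ}

/-- The linear map from fields to overlaps along a path of overlaps. -/
noncomputable def loopOp (m p a : Fin (k + 1) → ℝ) (l : Fin (k + 1)) : ℝ :=
  ∑ j, lmass m j * ((1 - max (p l) (p j)) * a l - (min (p l) (p j) - p l * p j) * a j)

/-- The fields of a path of overlaps on the sphere: `∫₀^q dx / T x ^ 2`. -/
noncomputable def sphField (m p : Fin (k + 1) → ℝ) (l : Fin (k + 1)) : ℝ :=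
  p 0 / tail (stepLaw m p) (p 0) ^ 2 +
    ∑ i : Fin k, if (i : ℕ) < (l : ℕ) then
      (p i.succ - p i.castSucc) /
        (tail (stepLaw m p) (p i.castSucc) * tail (stepLaw m p) (p i.succ)) else 0

end Vale.Agent.P157F
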