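import Vale.Agent.P157F.Defs
import Vale.Agent.P166F.Up.StepLaw
import Vale.Agent.P157.Low.SphCasc

/-!
P157: the free value of a field path on the sphere lies below the spherical entropy of the overlap
path, and falls linearly in the size of the fields.
-/

namespace Vale.Agent.P157F

open MeasureTheory Finset Vale.Agent.P157 Vale.Agent.P157.Low Vale.Agent.P166F

variable {k : ℕ}

/-- The value of free coordinates on the sphere in a field path, at multiplier `z`. -/
noncomputable def sphFree (m r : Fin (k + 1) → ℝ) (z : ℝ) : ℝ :=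
  (z - 1 - Real.log z) / 2 + qlogs m (incr r) (lv k) z + r 0 / (2 * qmult m (incr r) (lv k) z)

/-- A family on the levels as a sequence, constant past the last one. -/
def onNat (x : Fin (k + 1) → ℝ) (i : ℕ) : ℝ := x ⟨min i k, by omega⟩

lemma onNat_eq (x : Fin (k + 1) → ℝ) (l : Fin (k + 1)) : onNat x l = x l := by
  simp only [onNat]
  exact congrArg x (Fin.ext (min_eq_left (Nat.lt_succ_iff.1 l.isLt)))

lemma cumul_eq (m : Fin (k + 1) → ℝ) (l : Fin (k + 1)) : cumul m l = m l := by
  rw [cumul, dif_pos (Nat.lt_succ_iff.1 l.isLt)]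

/-- Summation by parts. -/
lemma sum_mul_step (b u : ℕ → ℝ) (n : ℕ) :
    ∑ i ∈ range n, b i * (u (i + 1) - u i) =
      -(b 0 * u 0) + ∑ i ∈ range n, (b i - b (i + 1)) * u (i + 1) + b n * u n := by
  induction n with
  | zero => simp
  | succ n ih => rw [sum_range_succ, sum_range_succ, ih]; ring

/-- The multiplier left at level `j`. -/
noncomputable def wseq (M D : ℕ → ℝ) (k : ℕ) (z : ℝ) (j : ℕ) : ℝ :=
  z - ∑ i ∈ Ico j k, M (i + 1) * D i

lemma qmult_qlogs_eq (m d : Fin (k + 1) → ℝ) (z : ℝ) (M D : ℕ → ℝ)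
    (hM : ∀ l : Fin (k + 1), M l = m l) (hD : ∀ i : Fin k, D i = d i.succ) :
    ∀ j, j ≤ k → qmult m d ((lv k).drop j) z = wseq M D k z j ∧
      qlogs m d ((lv k).drop j) z = ∑ i ∈ Ico j k,
        Real.log (wseq M D k z (i + 1) / wseq M D k z i) / (2 * M (i + 1)) := by
  intro j hj
  induction hj using Nat.decreasingInduction with
  | self => simp [qmult, qlogs, wseq, List.drop_of_length_le (length_lv k).le]
  | of_succ j hjk ih =>
    rw [List.drop_eq_getElem_cons (by rw [length_lv]; omega),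
      show (lv k)[j]'(by rw [length_lv]; omega) = (⟨j, hjk⟩ : Fin k).succ by simp [lv]]
    have e : wseq M D k z j = wseq M D k z (j + 1) - m (⟨j, hjk⟩ : Fin k).succ * d (⟨j, hjk⟩ : Fin k).succ := by
      have h1 : M (j + 1) = m (⟨j, hjk⟩ : Fin k).succ := by
        rw [← hM]; simp
      have h2 : D j = d (⟨j, hjk⟩ : Fin k).succ := hD ⟨j, hjk⟩
      rw [wseq, wseq, sum_eq_sum_Ico_succ_bot hjk, h1, h2]
      ring
    refine ⟨?_, ?_⟩
    · rw [qmult, ih.1, e]
    · rw [qlogs, qmult, ih.1, ih.2, ← e, sum_eq_sum_Ico_succ_bot hjk, ← hM]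
      simp only [Fin.val_succ]
      ring

/-- Above one, the logarithm is below the tangent at a point, up to a slope. -/
lemma log_le_slope {T W σ : ℝ} (hT : 0 < T) (hW : 0 < W) (hσ : 0 ≤ σ) (hσ1 : σ ≤ 1 / 2) :
    Real.log W - T * W ≤ -Real.log T - 1 + 2 * σ - σ * (T * W) := by
  have h1 : 0 < (1 - σ) * T := mul_pos (by linarith) hT
  have h := Real.log_le_sub_one_of_pos (mul_pos h1 hW)
  rw [Real.log_mul h1.ne' hW.ne', Real.log_mul (by linarith) hT.ne'] at h
  have h2 : -(2 * σ) ≤ Real.log (1 - σ) := by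
    have h3 := Real.one_sub_inv_le_log_of_pos (show 0 < 1 - σ by linarith)
    have h4 : 1 - 2 * (σ : ℝ) ≤ 1 - 0 := by linarith
    have : (1 - σ)⁻¹ ≤ 1 + 2 * σ := by
      rw [inv_le_iff_one_le_mul₀ (by linarith)]
      nlinarith
    linarith
  linarith

/-- Some multiplier, bounded at the root, brings the free value, less the pairing terms, below the
spherical entropy, with a slope in the largest variance. -/
theorem exists_sphFree_le {m p : Fin (k + 1) → ℝ} (hm : Levels m) (hp : Path p) {η : ℝ} (hη : 0 < η) :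
    ∃ A, ∃ ν > 0, ∀ r ∈ fieldPaths k, ∃ z, 1 ≤ z ∧ 0 < qmult m (incr r) (lv k) z ∧
      qmult m (incr r) (lv k) z ≤ A ∧
      sphFree m r z - r (Fin.last k) / 2 + pairing m p r ≤ sphEnt m p + η - ν * r (Fin.last k) := by
  set M := cumul m with hMdef
  set P := onNat p
  set T : ℕ → ℝ := fun j => tail (stepLaw m p) (P j) with hTdef
  set c : ℕ → ℝ := fun j => ∑ l ∈ Ico j (k + 1), (M (l + 1) - M l) * (1 - P l) with hcdef
  have hM0 : M 0 = 0 := by rw [hMdef, cumul, dif_pos k.zero_le]; exact hm.zero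
  have hM1 : ∀ j, M j ≤ 1 := fun j => by
    rw [hMdef, cumul]; split_ifs with h
    · exact (hm.ltOne _).le
    · exact le_rfl
  have hMpos : ∀ j, 1 ≤ j → 0 < M j := fun j hj => by
    rw [hMdef, cumul]; split_ifs with h
    · rw [← hm.zero]; exact hm.strict (Fin.lt_def.2 (by simp; omega))
    · exact one_pos
  have hMstep : ∀ j, j ≤ k → 0 < M (j + 1) - M j := fun j hj => by
    rw [hMdef, cumul, cumul, dif_pos hj, sub_pos]; split_ifs with h
    · exact hm.strict (Fin.lt_def.2 (Nat.lt_succ_self j))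
    · exact hm.ltOne _
  have hMlast : M (k + 1) = 1 := by rw [hMdef, cumul, dif_neg (by omega)]
  have hPlt : ∀ j, P j < 1 := fun j => hp.ltOne _
  have hP0 : ∀ j, 0 ≤ P j := fun j => hp.nonneg _
  have hPmono : Monotone P := fun i j h => hp.mono (Fin.le_def.2 (min_le_min_right k h))
  have hc0 : ∀ j, 0 ≤ c j := fun j => sum_nonneg fun l hl =>
    mul_nonneg (hMstep l (Nat.lt_succ_iff.1 (mem_Ico.1 hl).2)).le (by linarith [hPlt l])
  have hcstep : ∀ j, j ≤ k → c j = (M (j + 1) - M j) * (1 - P j) + c (j + 1) := fun j hj =>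
    sum_eq_sum_Ico_succ_bot (show j < k + 1 by omega) _
  have hTeq : ∀ j, j ≤ k → T j = M (j + 1) * (1 - P j) + c (j + 1) := fun j hj => by
    have e : ∀ l : Fin (k + 1), lmass m l * (1 - max (P j) (p l)) =
        (M ((l : ℕ) + 1) - M l) * (1 - max (P j) (P l)) := fun l => by
      rw [show P l = p l from onNat_eq p l, Vale.Agent.P166F.lmass_eq]
    rw [hTdef]
    simp only [tail]
    rw [integral_stepLaw hm, sum_congr rfl fun l _ => e l,
      Fin.sum_univ_eq_sum_range (fun l => (M (l + 1) - M l) * (1 - max (P j) (P l))) (k + 1),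
      ← sum_range_add_sum_Ico _ (show j + 1 ≤ k + 1 by omega),
      sum_congr rfl fun l hl => by rw [max_eq_left (hPmono (Nat.lt_succ_iff.1 (mem_range.1 hl)))],
      sum_congr (s₁ := Ico (j + 1) (k + 1)) rfl fun l hl => by
        rw [max_eq_right (hPmono (show j ≤ l by linarith [(mem_Ico.1 hl).1]))],
      ← sum_mul, sum_range_sub M, hM0, sub_zero]
  have hTpos : ∀ j, j ≤ k → 0 < T j := fun j hj => by
    rw [hTeq j hj]
    exact add_pos_of_pos_of_nonneg (mul_pos (hMpos _ (by omega)) (by linarith [hPlt j])) (hc0 _)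
  have hT0 : T 0 ≤ 1 := by
    rw [hTeq 0 k.zero_le]
    have h1 : c 1 ≤ ∑ l ∈ Ico 1 (k + 1), (M (l + 1) - M l) := sum_le_sum fun l hl =>
      mul_le_of_le_one_right (hMstep l (Nat.lt_succ_iff.1 (mem_Ico.1 hl).2)).le (by linarith [hP0 l])
    rw [sum_Ico_eq_sub _ (show 1 ≤ k + 1 by omega), sum_range_sub M, sum_range_sub M, hMlast] at h1
    have h2 := mul_le_of_le_one_right (hMpos 1 le_rfl).le (show 1 - P 0 ≤ 1 by linarith [hP0 0])
    linarith
  -- the weights of the logarithms
  set b : ℕ → ℝ := fun i => 1 / M (i + 1) with hbdef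
  set b' : ℕ → ℝ := fun i => c (i + 1) / M (i + 1) with hb'def
  have hb' : ∀ i, i ≤ k → b' i = T i * b i - (1 - P i) := fun i hi => by
    have := (hMpos (i + 1) (by omega)).ne'
    simp only [hb'def, hbdef, hTeq i hi]
    field_simp
    ring
  have hbk : b k = 1 := by simp [hbdef, hMlast]
  have hb'k : b' k = 0 := by simp [hb'def, hcdef]
  have hbmono : ∀ i, i < k → 0 < b i - b (i + 1) := fun i hi => by
    simp only [hbdef, sub_pos]
    exact one_div_lt_one_div_of_lt (hMpos _ (by omega)) (sub_pos.1 (hMstep (i + 1) (by omega)))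
  have hbdiff : ∀ i, i < k → b' i - b' (i + 1) = T (i + 1) * (b i - b (i + 1)) := fun i hi => by
    have e := hb' (i + 1) (by omega)
    have h1 : b' i = T (i + 1) * b i - (1 - P (i + 1)) := by
      have := (hMpos (i + 1) (by omega)).ne'
      simp only [hb'def, hbdef, hcstep (i + 1) (by omega), hTeq (i + 1) (by omega)]
      field_simp
      ring
    rw [e, h1]; ring
  have hb0 : 1 ≤ b 0 := by
    simp only [hbdef]; rw [le_div_iff₀ (hMpos _ le_rfl), one_mul]; exact hM1 _
  -- the parameters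
  set K := P 0 / T 0 + b 0 with hK
  have hK1 : 1 ≤ K := le_add_of_nonneg_of_le (div_nonneg (hP0 0) (hTpos 0 k.zero_le).le) hb0
  set θ := η / K with hθdef
  have hθ : 0 < θ := div_pos hη (by linarith)
  set σ := min (1 / 2) (η / (2 * b 0)) with hσdef
  have hσ : 0 < σ := lt_min (by norm_num) (div_pos hη (by linarith))
  have hσ1 : σ ≤ 1 / 2 := min_le_left _ _
  have hσb : 2 * σ * b 0 ≤ η := by
    have := (le_div_iff₀ (show (0 : ℝ) < 2 * b 0 by linarith)).1 (min_le_right (1 / 2) (η / (2 * b 0)))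
    linarith
  obtain ⟨γ, hγ, hγle⟩ : ∃ γ > 0, ∀ D W : ℕ → ℝ, (∀ i, i < k → 0 ≤ D i) → (∀ i, i ≤ k → 0 < W i) →
      (W k = W 0 + ∑ i ∈ range k, M (i + 1) * D i) →
      γ * ∑ i ∈ range k, D i ≤ ∑ i ∈ range k, (b i - b (i + 1)) * (σ * (T (i + 1) * W (i + 1))) := by
    rcases k with _ | k
    · exact ⟨1, one_pos, fun D W _ _ _ => by simp⟩
    refine ⟨(b k - b (k + 1)) * (σ * (T (k + 1) * M 1)),
      mul_pos (hbmono k (by omega)) (mul_pos hσ (mul_pos (hTpos _ le_rfl) (hMpos 1 le_rfl))),
      fun D W hD hW hWk => ?_⟩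
    refine le_trans ?_ (single_le_sum (f := fun i => (b i - b (i + 1)) * (σ * (T (i + 1) * W (i + 1))))
      (fun i hi => ?_) (mem_range.2 (Nat.lt_succ_self k)))
    · simp only [mul_assoc]
      refine mul_le_mul_of_nonneg_left (mul_le_mul_of_nonneg_left (mul_le_mul_of_nonneg_left ?_
        (hTpos _ le_rfl).le) hσ.le) (hbmono k (by omega)).le
      rw [hWk, mul_sum]
      refine le_add_of_nonneg_of_le (hW 0 (Nat.zero_le _)).le (sum_le_sum fun i hi =>
        mul_le_mul_of_nonneg_right ?_ (hD i (mem_range.1 hi)))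
      have hcm : ∀ a, a ≤ k + 1 → 1 ≤ a → M 1 ≤ M a := fun a ha h1 => by
        rw [hMdef, cumul, cumul, dif_pos (show 1 ≤ k + 1 by omega), dif_pos ha]
        exact hm.strict.monotone (Fin.le_def.2 h1)
      exact hcm (i + 1) (by have := mem_range.1 hi; omega) (by omega)
    · exact mul_nonneg (hbmono i (mem_range.1 hi)).le
        (mul_nonneg hσ.le (mul_nonneg (hTpos _ (by have := mem_range.1 hi; omega)).le (hW _ (by have := mem_range.1 hi; omega)).le))
  refine ⟨(1 + θ) / T 0, min (T 0 * (θ / (1 + θ))) γ / 2, by have := hTpos 0 k.zero_le; positivity, fun r hr => ?_⟩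
  set R := onNat r with hRdef
  set D : ℕ → ℝ := fun i => R (i + 1) - R i with hDdef
  set z := (1 + θ) / T 0 + ∑ i ∈ range k, M (i + 1) * D i with hzdef
  set W := wseq M D k z with hWdef
  have hD : ∀ i, 0 ≤ D i := fun i =>
    sub_nonneg.2 (hr.1 (Fin.le_def.2 (min_le_min_right k (Nat.le_succ i))))
  have hW0 : W 0 = (1 + θ) / T 0 := by
    simp only [hWdef, wseq, hzdef, range_eq_Ico]; ring
  have hW0pos : 0 < W 0 := by rw [hW0]; have := hTpos 0 k.zero_le; positivity
  have hWk : W k = z := by simp [hWdef, wseq]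
  have hWstep : ∀ i, i < k → W (i + 1) - W i = M (i + 1) * D i := fun i hi => by
    simp only [hWdef, wseq]; rw [sum_eq_sum_Ico_succ_bot hi]; ring
  have hWpos : ∀ i, i ≤ k → 0 < W i := fun i hi => by
    induction i with
    | zero => exact hW0pos
    | succ i ih =>
      have := hWstep i (by omega)
      have := mul_nonneg (hMpos (i + 1) (by omega)).le (hD i)
      linarith [ih (by omega)]
  have hq := qmult_qlogs_eq m (incr r) z M D (fun l => cumul_eq m l) (fun i => by
    have h1 : R ((i : ℕ) + 1) = r i.succ := onNat_eq r i.succ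
    have h2 : R (i : ℕ) = r i.castSucc := onNat_eq r i.castSucc
    have h3 : incr r i.succ = r i.succ - r i.castSucc := by
      rw [incr, dif_neg (by simp)]; rfl
    simp only [hDdef, h1, h2, h3]) 0 k.zero_le
  rw [List.drop_zero] at hq
  have hz1 : 1 ≤ z := by
    have h1 : 1 ≤ (1 + θ) / T 0 := by rw [le_div_iff₀ (hTpos 0 k.zero_le)]; linarith
    have h2 : 0 ≤ ∑ i ∈ range k, M (i + 1) * D i :=
      sum_nonneg fun i _ => mul_nonneg (hMpos (i + 1) (by omega)).le (hD i)
    linarith
  refine ⟨z, hz1, by rw [hq.1]; exact hWpos 0 k.zero_le, by rw [hq.1]; exact hW0.le, ?_⟩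
  -- everything as sums
  have elogs : 2 * qlogs m (incr r) (lv k) z =
      ∑ i ∈ range k, b i * (Real.log (W (i + 1)) - Real.log (W i)) := by
    rw [hq.2, ← range_eq_Ico, mul_sum]
    refine sum_congr rfl fun i hi => ?_
    have := mem_range.1 hi
    rw [Real.log_div (hWpos _ (by omega)).ne' (hWpos _ (by omega)).ne']
    simp only [hbdef]; ring
  have epair : 2 * pairing m p r - r (Fin.last k) =
      R 0 * (-T 0) - ∑ i ∈ range k, b' i * (W (i + 1) - W i) - (z - W 0) := by
    set e : ℕ → ℝ := fun i => 1 - M (i + 1) - c (i + 1) with he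
    have hek : e k = 0 := by simp [he, hMlast, hcdef]
    have hestep : ∀ i, i < k → e i - e (i + 1) = (M (i + 2) - M (i + 1)) * P (i + 1) := fun i hi => by
      simp only [he, hcstep (i + 1) (by omega)]; ring
    have hlast : r (Fin.last k) = R 0 + ∑ i ∈ range k, D i := by
      rw [hDdef, sum_range_sub R, ← show R k = r (Fin.last k) from onNat_eq r (Fin.last k)]; ring
    have hp2 : 2 * pairing m p r = (M 1 - M 0) * P 0 * R 0 +
        ∑ i ∈ range k, (e i - e (i + 1)) * R (i + 1) := by
      rw [pairing, mul_div_cancel₀ _ (two_ne_zero : (2 : ℝ) ≠ 0),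
        sum_congr rfl fun l _ => show lmass m l * p l * r l =
          (M ((l : ℕ) + 1) - M l) * P l * R l by
            rw [show P l = p l from onNat_eq p l, show R l = r l from onNat_eq r l, Vale.Agent.P166F.lmass_eq],
        Fin.sum_univ_eq_sum_range (fun l => (M (l + 1) - M l) * P l * R l) (k + 1), sum_range_succ', add_comm]
      congr 1
      exact sum_congr rfl fun i hi => by rw [hestep i (mem_range.1 hi)]
    have hparts := sum_mul_step e R k
    rw [hek, zero_mul, add_zero] at hparts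
    have hb'D : ∑ i ∈ range k, b' i * (W (i + 1) - W i) = ∑ i ∈ range k, (1 - M (i + 1)) * D i -
        ∑ i ∈ range k, e i * D i + 0 := by
      rw [add_zero, ← sum_sub_distrib]
      refine sum_congr rfl fun i hi => ?_
      have := (hMpos (i + 1) (by omega)).ne'
      rw [hWstep i (mem_range.1 hi)]
      simp only [hb'def, he]
      field_simp
      ring
    have hMD : ∑ i ∈ range k, (1 - M (i + 1)) * D i = ∑ i ∈ range k, D i - ∑ i ∈ range k, M (i + 1) * D i := by
      rw [← sum_sub_distrib]; exact sum_congr rfl fun i _ => by ring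
    have e0 : e 0 = 1 - T 0 - M 1 * P 0 := by
      simp only [he, hTeq 0 k.zero_le]; ring
    have hz' : ∑ i ∈ range k, M (i + 1) * D i = ∑ i ∈ range k, (W (i + 1) - W i) :=
      sum_congr rfl fun i hi => (hWstep i (mem_range.1 hi)).symm
    rw [hp2, hlast, hM0, sub_zero]
    have hparts' : ∑ i ∈ range k, (e i - e (i + 1)) * R (i + 1) =
        ∑ i ∈ range k, e i * D i + e 0 * R 0 := by
      simp only [hDdef]; linarith
    rw [hparts', e0, hb'D, hMD]
    linarith [sum_range_sub W k, hWk, hz']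
  have eent : 2 * sphEnt m p = P 0 / T 0 + b 0 * Real.log (T 0) -
      ∑ i ∈ range k, (b i - b (i + 1)) * Real.log (T (i + 1)) := by
    have hTk : T k = 1 - P k := by rw [hTeq k le_rfl, hMlast, hcdef]; simp
    have hPc : ∀ i : Fin k, p i.castSucc = P i ∧ p i.succ = P ((i : ℕ) + 1) := fun i =>
      ⟨(onNat_eq p i.castSucc).symm, (onNat_eq p i.succ).symm⟩
    have hterm : ∀ i : Fin k, Real.log (tail (stepLaw m p) (p i.castSucc) / tail (stepLaw m p) (p i.succ)) /
        m i.succ = -(b i * (Real.log (T ((i : ℕ) + 1)) - Real.log (T i))) := fun i => by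
      rw [(hPc i).1, (hPc i).2, ← cumul_eq m i.succ]
      change Real.log (T i / T ((i : ℕ) + 1)) / M ((i : ℕ) + 1) = _
      rw [Real.log_div (hTpos _ i.isLt.le).ne' (hTpos _ i.isLt).ne']
      simp only [hbdef]; ring
    rw [sphEnt, mul_div_cancel₀ _ (two_ne_zero : (2 : ℝ) ≠ 0), sum_congr rfl fun i _ => hterm i,
      Fin.sum_univ_eq_sum_range (fun i => -(b i * (Real.log (T (i + 1)) - Real.log (T i)))) k,
      sum_neg_distrib, sum_mul_step b (fun i => Real.log (T i)) k]
    simp only [hbk, one_mul, hTk]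
    rw [
      show p (Fin.last k) = P k from (onNat_eq p (Fin.last k)).symm,
      show tail (stepLaw m p) (p 0) = T 0 from by rw [← onNat_eq p 0]; rfl,
      show p 0 = P 0 from (onNat_eq p 0).symm]
    ring
  have hlogz := sum_mul_step b (fun i => Real.log (W i)) k
  have hWsum := sum_mul_step b' W k
  rw [hbk, one_mul] at hlogz
  have hbW : ∑ i ∈ range k, (b' i - b' (i + 1)) * W (i + 1) =
      ∑ i ∈ range k, T (i + 1) * (b i - b (i + 1)) * W (i + 1) :=
    sum_congr rfl fun i hi => by rw [hbdiff i (mem_range.1 hi)]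
  rw [hb'k, zero_mul, add_zero, hbW] at hWsum
  have hsum : ∑ i ∈ range k, (b i - b (i + 1)) * (Real.log (W (i + 1)) - T (i + 1) * W (i + 1)) ≤
      -(∑ i ∈ range k, (b i - b (i + 1)) * Real.log (T (i + 1))) + (b 0 - 1) * (2 * σ - 1) -
        γ * ∑ i ∈ range k, D i := by
    have h1 := hγle D W (fun i _ => hD i) hWpos (by
      rw [hWk, hW0])
    have h2 : ∑ i ∈ range k, (b i - b (i + 1)) = b 0 - 1 := by rw [sum_range_sub' b, hbk]
    have h3 : ∑ i ∈ range k, (b i - b (i + 1)) * (Real.log (W (i + 1)) - T (i + 1) * W (i + 1)) ≤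
        ∑ i ∈ range k, ((b i - b (i + 1)) * (2 * σ - 1) - (b i - b (i + 1)) * Real.log (T (i + 1)) -
          (b i - b (i + 1)) * (σ * (T (i + 1) * W (i + 1)))) := by
      refine sum_le_sum fun i hi => ?_
      have hi' := mem_range.1 hi
      have := mul_le_mul_of_nonneg_left (log_le_slope (hTpos _ hi') (hWpos _ hi') hσ.le hσ1)
        (hbmono i hi').le
      linarith
    rw [sum_sub_distrib, sum_sub_distrib, ← sum_mul, h2] at h3
    linarith
  have hsplit : ∑ i ∈ range k, (b i - b (i + 1)) * (Real.log (W (i + 1)) - T (i + 1) * W (i + 1)) =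
      ∑ i ∈ range k, (b i - b (i + 1)) * Real.log (W (i + 1)) -
        ∑ i ∈ range k, T (i + 1) * (b i - b (i + 1)) * W (i + 1) := by
    rw [← sum_sub_distrib]; exact sum_congr rfl fun i _ => by ring
  have hlastR : r (Fin.last k) = R 0 + ∑ i ∈ range k, D i := by
    rw [hDdef, sum_range_sub R, ← show R k = r (Fin.last k) from onNat_eq r (Fin.last k)]; ring
  have hR0 : 0 ≤ R 0 := hr.2 _
  have hlast' : min (T 0 * (θ / (1 + θ))) γ * r (Fin.last k) ≤
      T 0 * (θ / (1 + θ)) * R 0 + γ * ∑ i ∈ range k, D i := by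
    rw [hlastR, mul_add]
    exact add_le_add (mul_le_mul_of_nonneg_right (min_le_left _ _) hR0)
      (mul_le_mul_of_nonneg_right (min_le_right _ _) (sum_nonneg fun i _ => hD i))
  have hT0' := hTpos 0 k.zero_le
  have efree : 2 * sphFree m r z = z - 1 - Real.log z + 2 * qlogs m (incr r) (lv k) z + R 0 / W 0 := by
    rw [sphFree, hq.1, show r 0 = R 0 from (onNat_eq r 0).symm]; ring
  have eR : R 0 / W 0 = R 0 * T 0 - T 0 * (θ / (1 + θ)) * R 0 := by
    rw [hW0]; field_simp; ring
  have eW : W 0 * (b' 0 + 1) = (1 + θ) * K := by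
    rw [hb' 0 k.zero_le, hW0, hK]; field_simp; ring
  have elog : Real.log (W 0) = Real.log (1 + θ) - Real.log (T 0) := by
    rw [hW0, Real.log_div (by linarith) hT0'.ne']
  have hlog1 : 0 ≤ b 0 * Real.log (1 + θ) := mul_nonneg (by linarith) (Real.log_nonneg (by linarith))
  have hθK : θ * K = η := by rw [hθdef]; field_simp
  rw [hWk] at hlogz
  have elogW : b 0 * Real.log (W 0) = b 0 * Real.log (1 + θ) - b 0 * Real.log (T 0) := by rw [elog]; ring
  linarith

end Vale.Agent.P157F
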