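import Vale.Agent.P157F.Up.Model
import Vale.Agent.P157.Sphere

/-!
P157: finitely many points standing in for the uniform measure of the sphere.
-/

namespace Vale.Agent.P157F

open MeasureTheory
open Vale.Agent.P157 (Sph sphereMeasure isProbabilityMeasure_sphereMeasure)
open Vale.Agent.P157.Low (Sp)

variable {N : ℕ}

/-- Finitely many points of the sphere give every log-average of a Lipschitz exponent up to a small
multiple of its constant. -/
theorem exists_sphConf (hN : 1 ≤ N) {δ : ℝ} (hδ : 0 < δ) :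
    ∃ C : Up.Conf N, ∀ (G : Sp N → ℝ) (L : ℝ), 0 ≤ L →
      (∀ u v : Sph N, |G u - G v| ≤ L * dist u v) →
      |Real.log ((∑ a, Real.exp (G (C.pt a))) / Fintype.card C.A) -
        Real.log (∫ u : Sph N, Real.exp (G u) ∂sphereMeasure N)| ≤ δ * (L + 1) := by
  classical
  have := isProbabilityMeasure_sphereMeasure hN
  set μ := sphereMeasure N
  obtain ⟨t, -, ht, hcov⟩ := finite_cover_balls_of_compact (X := Sph N) isCompact_univ hδ
  have := ht.fintype
  set J := Fintype.card t
  set x : Fin J → Sph N := fun j => ((Fintype.equivFin t).symm j : Sph N)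
  set cell : Fin J → Set (Sph N) := disjointed fun j => Metric.ball (x j) δ with hcell
  have hms : ∀ j, MeasurableSet (cell j) := fun j =>
    disjointedRec (fun {_ _} ht => ht.diff Metric.isOpen_ball.measurableSet)
      Metric.isOpen_ball.measurableSet
  have hdj : Pairwise (Function.onFun Disjoint cell) := disjoint_disjointed _
  have hU : ⋃ j, cell j = Set.univ := by
    rw [hcell, iUnion_disjointed, Set.eq_univ_iff_forall]
    intro u
    obtain ⟨y, hy, hu⟩ := Set.mem_iUnion₂.1 (hcov (Set.mem_univ u))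
    exact Set.mem_iUnion.2 ⟨Fintype.equivFin t ⟨y, hy⟩, by simpa [x] using hu⟩
  have hsub : ∀ j, ∀ u ∈ cell j, dist u (x j) ≤ δ := fun j u hu =>
    (Metric.mem_ball.1 (disjointed_subset (fun j => Metric.ball (x j) δ) j hu)).le
  set w : Fin J → ℝ := fun j => μ.real (cell j) with hw
  have hw0 : ∀ j, 0 ≤ w j := fun j => measureReal_nonneg
  have hw1 : ∑ j, w j = 1 := by
    rw [hw, ← measureReal_iUnion_fintype hdj hms, hU, probReal_univ]
  -- multiplicities in proportion to the cells
  obtain ⟨K, hK0, hK⟩ : ∃ K : ℝ, 0 < K ∧ ∀ j, 0 < w j → 1 ≤ δ * (K * w j) := by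
    refine ⟨1 + ∑ j, if 0 < w j then 1 / (δ * w j) else 0,
      add_pos_of_pos_of_nonneg one_pos (Finset.sum_nonneg fun j _ => ?_), fun j hj => ?_⟩
    · split_ifs with h <;> positivity
    · have hi : (if 0 < w j then 1 / (δ * w j) else 0) ≤ ∑ i, if 0 < w i then 1 / (δ * w i) else 0 :=
        Finset.single_le_sum (f := fun i => if 0 < w i then 1 / (δ * w i) else 0)
          (fun i _ => by split_ifs <;> positivity) (Finset.mem_univ j)
      rw [if_pos hj] at hi
      have h1 := mul_le_mul_of_nonneg_right (hi.trans (le_add_of_nonneg_left zero_le_one))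
        (mul_pos hδ hj).le
      rw [div_mul_cancel₀ _ (mul_pos hδ hj).ne'] at h1
      linarith
  set c : Fin J → ℕ := fun j => ⌈K * w j⌉₊
  have hcl : ∀ j, K * w j ≤ c j := fun j => Nat.le_ceil _
  have hcu : ∀ j, (c j : ℝ) ≤ (1 + δ) * (K * w j) := fun j => by
    rcases (hw0 j).eq_or_lt with h | h
    · simp [c, ← h]
    · have := Nat.ceil_lt_add_one (mul_nonneg hK0.le h.le)
      nlinarith [hK j h]
  have hne : Nonempty (Σ j, Fin (c j)) := by
    obtain ⟨j, -, hj⟩ := Finset.exists_ne_zero_of_sum_ne_zero (hw1.trans_ne one_ne_zero)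
    exact ⟨⟨j, 0, Nat.ceil_pos.2 (mul_pos hK0 ((hw0 j).lt_of_ne' hj))⟩⟩
  refine ⟨⟨Σ j, Fin (c j), inferInstance, hne, fun a => (x a.1 : Sp N),
    fun a => mem_sphere_zero_iff_norm.1 (x a.1).2⟩, fun G L hL hG => ?_⟩
  simp only [Fintype.sum_sigma, Finset.sum_const, Finset.card_univ, Fintype.card_fin, nsmul_eq_mul,
    Fintype.card_sigma, Nat.cast_sum]
  set e : Fin J → ℝ := fun j => Real.exp (G (x j))
  set S := ∑ j, w j * e j with hS
  have hcs : K ≤ ∑ j, (c j : ℝ) := by
    refine le_of_eq_of_le ?_ (Finset.sum_le_sum fun j _ => hcl j)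
    rw [← Finset.mul_sum, hw1, mul_one]
  have hcs' : ∑ j, (c j : ℝ) ≤ (1 + δ) * K := by
    refine (Finset.sum_le_sum fun j _ => hcu j).trans_eq ?_
    rw [← Finset.mul_sum, ← Finset.mul_sum, hw1, mul_one]
  have hse : K * S ≤ ∑ j, (c j : ℝ) * e j := by
    rw [hS, Finset.mul_sum]
    exact Finset.sum_le_sum fun j _ => by
      rw [← mul_assoc]; exact mul_le_mul_of_nonneg_right (hcl j) (Real.exp_pos _).le
  have hse' : ∑ j, (c j : ℝ) * e j ≤ (1 + δ) * (K * S) := by
    rw [hS, Finset.mul_sum, Finset.mul_sum]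
    exact Finset.sum_le_sum fun j _ => by
      refine (mul_le_mul_of_nonneg_right (hcu j) (Real.exp_pos _).le).trans_eq ?_
      simp only [e]; ring
  have hS0 : 0 < S := by
    obtain ⟨j, -, hj⟩ := Finset.exists_ne_zero_of_sum_ne_zero (hw1.trans_ne one_ne_zero)
    exact (mul_pos ((hw0 j).lt_of_ne' hj) (Real.exp_pos _)).trans_le
      (Finset.single_le_sum (f := fun i => w i * e i)
        (fun i _ => mul_nonneg (hw0 i) (Real.exp_pos _).le) (Finset.mem_univ j))
  -- the integral cell by cell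
  have hc : Continuous fun u : Sph N => G u := by
    refine (LipschitzWith.of_dist_le_mul (K := ⟨L, hL⟩) fun u v => ?_).continuous
    rw [Real.dist_eq]; exact hG u v
  have hint : Integrable (fun u : Sph N => Real.exp (G u)) μ :=
    (hc.rexp).integrable_of_hasCompactSupport (HasCompactSupport.of_compactSpace _)
  have hI : ∫ u : Sph N, Real.exp (G u) ∂μ = ∑ j, ∫ u in cell j, Real.exp (G u) ∂μ := by
    rw [← setIntegral_univ, ← hU,
      integral_iUnion_fintype hms hdj fun j => hint.integrableOn]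
  have hb : ∀ j, ∀ u ∈ cell j, G (x j) - δ * L ≤ G u ∧ G u ≤ G (x j) + δ * L := fun j u hu => by
    have h := abs_le.1 (hG u (x j))
    have h2 := mul_le_mul_of_nonneg_left (hsub j u hu) hL
    constructor <;> linarith [h.1, h.2]
  have hIl : Real.exp (-(δ * L)) * S ≤ ∫ u : Sph N, Real.exp (G u) ∂μ := by
    rw [hI, hS, Finset.mul_sum]
    refine Finset.sum_le_sum fun j _ => ?_
    calc Real.exp (-(δ * L)) * (w j * e j) = ∫ _ in cell j, Real.exp (G (x j) - δ * L) ∂μ := by
          rw [setIntegral_const, smul_eq_mul, sub_eq_add_neg, Real.exp_add]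
          simp only [hw, e]; ring
      _ ≤ _ := setIntegral_mono_on (integrable_const _).integrableOn hint.integrableOn (hms j)
          fun u hu => Real.exp_le_exp.2 (hb j u hu).1
  have hIu : ∫ u : Sph N, Real.exp (G u) ∂μ ≤ Real.exp (δ * L) * S := by
    rw [hI, hS, Finset.mul_sum]
    refine Finset.sum_le_sum fun j _ => ?_
    calc ∫ u in cell j, Real.exp (G u) ∂μ ≤ ∫ _ in cell j, Real.exp (G (x j) + δ * L) ∂μ :=
          setIntegral_mono_on hint.integrableOn (integrable_const _).integrableOn (hms j)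
            fun u hu => Real.exp_le_exp.2 (hb j u hu).2
      _ = _ := by
          rw [setIntegral_const, smul_eq_mul, Real.exp_add]
          simp only [hw, e]; ring
  -- logarithms
  set A := (∑ j, (c j : ℝ) * e j) / ∑ j, (c j : ℝ) with hA
  have hδ1 : (0 : ℝ) < 1 + δ := by linarith
  have hAl : S / (1 + δ) ≤ A := by
    rw [hA, div_le_div_iff₀ hδ1 (hK0.trans_le hcs)]
    calc S * ∑ j, (c j : ℝ) ≤ S * ((1 + δ) * K) := mul_le_mul_of_nonneg_left hcs' hS0.le
      _ = (K * S) * (1 + δ) := by ring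
      _ ≤ _ := mul_le_mul_of_nonneg_right hse hδ1.le
  have hAu : A ≤ (1 + δ) * S := by
    rw [hA, div_le_iff₀ (hK0.trans_le hcs)]
    calc ∑ j, (c j : ℝ) * e j ≤ (1 + δ) * (K * S) := hse'
      _ = (1 + δ) * S * K := by ring
      _ ≤ _ := mul_le_mul_of_nonneg_left hcs (by positivity)
  have hA0 : 0 < A := (div_pos hS0 hδ1).trans_le hAl
  have hI0 : 0 < ∫ u : Sph N, Real.exp (G u) ∂μ := (mul_pos (Real.exp_pos _) hS0).trans_le hIl
  have l1 := Real.log_le_log (div_pos hS0 hδ1) hAl
  have l2 := Real.log_le_log hA0 hAu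
  have l3 := Real.log_le_log (mul_pos (Real.exp_pos _) hS0) hIl
  have l4 := Real.log_le_log hI0 hIu
  rw [Real.log_div hS0.ne' hδ1.ne'] at l1
  rw [Real.log_mul hδ1.ne' hS0.ne'] at l2
  rw [Real.log_mul (Real.exp_pos _).ne' hS0.ne', Real.log_exp] at l3 l4
  have l5 : Real.log (1 + δ) ≤ δ := by linarith [Real.log_le_sub_one_of_pos hδ1]
  rw [abs_le]
  constructor <;> linarith

end Vale.Agent.P157F
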