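import Vale.Agent.P157F.Sph.Entropy
import Vale.Agent.P157F.Sph.Points
import Vale.Agent.P157.RSB.SphereEntropy
import Vale.Agent.P166F.Up.FromTree

/-!
P157: the tree value of uniform points of the sphere lies below the free value of the sphere.
-/

namespace Vale.Agent.P157F

open MeasureTheory ProbabilityTheory Filter
open scoped RealInnerProductSpace Topology
open Vale.Agent.P157 (Sph sphereMeasure isProbabilityMeasure_sphereMeasure shellC sphZ)
open Vale.Agent.P157.Low (Sp qmult qlogs lv incr qmult_le)
open Vale.Agent.P166F (Levels seqOf nestVal nestRoot good_levs nestVal_eq shf rootPt measurable_nestVal)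

variable {N k : ℕ} {m r : Fin (k + 1) → ℝ}

lemma levels_pos (hm : Levels m) {l : Fin (k + 1)} (hl : l ≠ 0) : 0 < m l := by
  rw [← hm.zero]
  exact hm.strict (Fin.pos_iff_ne_zero.2 hl)

lemma incr_nonneg (hr : Monotone r) (hr0 : ∀ l, 0 ≤ r l) (l : Fin (k + 1)) : 0 ≤ incr r l := by
  rw [incr]
  split_ifs
  · rw [sub_zero]; exact hr0 l
  · exact sub_nonneg.2 (hr (Nat.sub_le (l : ℕ) 1))

/-- A quadratic bound passes through the levels of a path. -/
theorem nestVal_quad_le {G : EuclideanSpace ℝ (Fin N) → ℝ} {K w b : ℝ} (hG : Vale.Agent.P157.RSB.Lip K G)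
    (hm : Levels m) (hr : Monotone r) (hr0 : ∀ l, 0 ≤ r l)
    (hle : ∀ x, G x ≤ ‖x‖ ^ 2 / (2 * w) + b) :
    ∀ j, j ≤ k → 0 < qmult m (incr r) ((lv k).drop (k - j)) w → ∀ x,
      nestVal j (fun i => seqOf m (k - j + i)) (fun i _ => seqOf r (k - j + i)) G x ≤
        ‖x‖ ^ 2 / (2 * qmult m (incr r) ((lv k).drop (k - j)) w) +
          N * qlogs m (incr r) ((lv k).drop (k - j)) w + b
  | 0, _, _, x => by
    rw [nestVal, Nat.sub_zero, List.drop_of_length_le (Vale.Agent.P157.Low.length_lv k).le]
    simpa [qmult, qlogs] using hle x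
  | j + 1, hj, hW, x => by
    set l0 : Fin (k + 1) := ⟨k - j, by omega⟩ with hl0
    have hne : l0 ≠ 0 := by
      rw [ne_eq, Fin.ext_iff, Fin.val_zero]
      show ¬(k - j = 0)
      omega
    have hm0 : 0 < m l0 := levels_pos hm hne
    have e1 : seqOf m (k - (j + 1) + 1) = m l0 := by
      rw [seqOf]; congr 1; ext; show min (k - (j + 1) + 1) k = k - j; omega
    have ed : seqOf r (k - (j + 1) + 1) - seqOf r (k - (j + 1) + 0) = incr r l0 := by
      rw [incr, dif_neg (show ¬((l0 : ℕ) = 0) by show ¬(k - j = 0); omega), seqOf, seqOf]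
      congr 1 <;> congr 1 <;> ext
      · show min (k - (j + 1) + 1) k = k - j; omega
      · show min (k - (j + 1) + 0) k = k - j - 1; omega
    have eseq : (fun i => seqOf m (k - (j + 1) + (i + 1))) = fun i => seqOf m (k - j + i) :=
      funext fun i => by congr 1; omega
    have eseq' : (fun i (_ : Fin N) => seqOf r (k - (j + 1) + (i + 1))) =
        fun i (_ : Fin N) => seqOf r (k - j + i) := funext fun i => by
      funext _; congr 1; omega
    rw [Vale.Agent.P157.Low.drop_lv (by omega : j + 1 ≤ k)] at hW ⊢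
    simp only [qmult] at hW
    simp only [qmult, qlogs]
    rw [← hl0] at hW ⊢
    set d := incr r l0
    have hd : 0 ≤ d := incr_nonneg hr hr0 l0
    set W' := qmult m (incr r) ((lv k).drop (k - j)) w with hW'def
    set L' := qlogs m (incr r) ((lv k).drop (k - j)) w
    have hW' : 0 < W' := by linarith [mul_nonneg hm0.le hd]
    have ih := nestVal_quad_le hG hm hr hr0 hle j (by omega) hW'
    set A := m l0 / (2 * W') with hA
    set c := Real.sqrt d
    have hc2 : c ^ 2 = d := Real.sq_sqrt hd
    have hD : 1 - 2 * A * c ^ 2 = (W' - m l0 * d) / W' := by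
      rw [hc2, hA]; field_simp
    have hD0 : 0 < 1 - 2 * A * c ^ 2 := by rw [hD]; positivity
    obtain ⟨hqi, hqe⟩ := Vale.Agent.P157.RSB.gauss_quad_vec (N := N) (by linarith : 2 * A * c ^ 2 < 1) x
    have esh : ∀ z : EuclideanSpace ℝ (Fin N),
        (WithLp.toLp 2 fun i : Fin N => c * z i) = c • z := fun z => by ext i; simp
    simp only [nestVal, eseq, eseq', e1, ed]
    change Real.log (∫ z : EuclideanSpace ℝ (Fin N), Real.exp (m l0 * nestVal j
      (fun i => seqOf m (k - j + i)) (fun i _ => seqOf r (k - j + i)) G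
      (x + WithLp.toLp 2 fun i : Fin N => c * z i)) ∂stdGaussian _) / m l0 ≤ _
    simp only [esh]
    set B' := (N : ℝ) * L' + b
    have hV : Vale.Agent.P157.RSB.Lip K (nestVal j (fun i => seqOf m (k - j + i))
        (fun i (_ : Fin N) => seqOf r (k - j + i)) G) := by
      rw [show nestVal j (fun i => seqOf m (k - j + i)) (fun i (_ : Fin N) => seqOf r (k - j + i)) G = _
        from funext fun y => nestVal_eq G _ _ _ y]
      refine hG.casc (good_levs _ fun i h1 h2 => ?_)
      refine levels_pos hm fun h => ?_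
      have := congrArg Fin.val h
      simp only [Fin.val_zero] at this
      omega
    have hwg : Vale.Agent.P157.RSB.Wgt (stdGaussian (EuclideanSpace ℝ (Fin N))) (m l0) _ :=
      hV.wgt (Vale.Agent.P157.RSB.shift_smul c) x (m l0)
    have hlog := Real.log_le_log hwg.pos (integral_mono hwg.int (hqi.const_mul (Real.exp (m l0 * B')))
      fun g => by
        rw [← Real.exp_add, Real.exp_le_exp]
        refine (mul_le_mul_of_nonneg_left (ih (x + c • g)) hm0.le).trans (le_of_eq ?_)
        simp only [A, B']
        ring)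
    rw [integral_const_mul, hqe, Real.log_mul (Real.exp_pos _).ne' (by positivity), Real.log_exp,
      Real.log_div (Real.exp_pos _).ne' (by positivity), Real.log_exp, Real.log_pow,
      Real.log_sqrt hD0.le, hD] at hlog
    have hlW : Real.log ((W' - m l0 * d) / W') = -Real.log (W' / (W' - m l0 * d)) := by
      rw [← Real.log_inv, inv_div]
    rw [hlW] at hlog
    refine (div_le_div_of_nonneg_right hlog hm0.le).trans (le_of_eq ?_)
    simp only [A, B', L']
    field_simp
    ring

/-- A quadratic bound on the base gives the free value of the path. -/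
theorem nestRoot_quad_le {G : EuclideanSpace ℝ (Fin N) → ℝ} {K w b : ℝ} (hG : Vale.Agent.P157.RSB.Lip K G)
    (hm : Levels m) (hr : Monotone r) (hr0 : ∀ l, 0 ≤ r l)
    (hle : ∀ x, G x ≤ ‖x‖ ^ 2 / (2 * w) + b) (hW : 0 < qmult m (incr r) (lv k) w) :
    nestRoot k (seqOf m) (fun j _ => seqOf r j) G ≤
      N * (qlogs m (incr r) (lv k) w + r 0 / (2 * qmult m (incr r) (lv k) w)) + b := by
  have e0 : seqOf r 0 = r 0 := by simp [seqOf]
  set c := Real.sqrt (r 0)
  have hc2 : c ^ 2 = r 0 := Real.sq_sqrt (hr0 0)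
  have hk : ∀ y : EuclideanSpace ℝ (Fin N), nestVal k (seqOf m) (fun j _ => seqOf r j) G y ≤
      ‖y‖ ^ 2 / (2 * qmult m (incr r) (lv k) w) + N * qlogs m (incr r) (lv k) w + b := fun y => by
    simpa using nestVal_quad_le hG hm hr hr0 hle k le_rfl (by simpa using hW) y
  have hV : Vale.Agent.P157.RSB.Lip K (nestVal k (seqOf m) (fun j (_ : Fin N) => seqOf r j) G) := by
    rw [show nestVal k (seqOf m) (fun j (_ : Fin N) => seqOf r j) G = _ from
      funext fun y => nestVal_eq G _ _ _ y]
    refine hG.casc (good_levs _ fun i h1 h2 => ?_)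
    refine levels_pos hm fun h => ?_
    have := congrArg Fin.val h
    simp only [Fin.val_zero] at this
    omega
  have esh : ∀ z : EuclideanSpace ℝ (Fin N),
      (WithLp.toLp 2 fun i : Fin N => c * z i) = c • z := fun z => by ext i; simp
  simp only [nestRoot, e0]
  change ∫ z : EuclideanSpace ℝ (Fin N), nestVal k (seqOf m) (fun j _ => seqOf r j) G
    (WithLp.toLp 2 fun i : Fin N => c * z i) ∂stdGaussian _ ≤ _
  simp only [esh]
  have hi := hV.integrable (Vale.Agent.P157.RSB.shift_smul c) 0
  simp only [zero_add] at hi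
  have hi2 : Integrable (fun g : EuclideanSpace ℝ (Fin N) =>
      c ^ 2 / (2 * qmult m (incr r) (lv k) w) * ‖g‖ ^ 2 + (N * qlogs m (incr r) (lv k) w + b))
      (stdGaussian _) :=
    ((Vale.Agent.P157.integrable_norm_pow 2).const_mul _).add (integrable_const _)
  refine (integral_mono hi hi2 fun g => ?_).trans (le_of_eq ?_)
  · refine (hk (c • g)).trans (le_of_eq ?_)
    rw [norm_smul, mul_pow, Real.norm_eq_abs, sq_abs]
    ring
  · rw [integral_add ((Vale.Agent.P157.integrable_norm_pow 2).const_mul _) (integrable_const _), integral_const_mul,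
      Vale.Agent.P157.integral_norm_sq_stdGaussian, integral_const, probReal_univ, one_smul, hc2]
    ring

end Vale.Agent.P157F
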