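import Vale.Agent.P157F.Sph.LoopArr
import Vale.Agent.P157.Low.CavityValue
import Vale.Agent.P166F.Low.Discr

/-!
P157: the loop equation on the sphere: rotation invariance and one added pattern.
-/

namespace Vale.Agent.P157F

open MeasureTheory Filter Vale.Agent.P157 Vale.Agent.P157.Low Vale.Agent.P166F
open scoped Topology

variable {r : ℕ}

/-- Two replicas meet at a level with its mass. -/
lemma casc_two (C : Casc r) (φ : Fin (r + 1) → ℝ) :
    ∑ B, C.P 2 B * φ (B 0 1) = ∑ l, lmass C.cdf l * φ l := by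
  rw [C.sum_pair]
  simp only [lmass, mNext, Nat.lt_iff_add_one_le]

lemma casc_mass (C : Casc r) : ∑ l, lmass C.cdf l = 1 := by
  have h := casc_two C fun _ => 1
  simp only [mul_one, C.total] at h
  exact h.symm

/-- The law of two meetings of three replicas. -/
lemma casc_three (C : Casc r) (l : Fin 2) (w : Fin (r + 1) → Fin (r + 1) → ℝ) :
    ∑ B, C.P 3 B * w (B 0 1) (B l.castSucc 2) =
      (∑ a, lmass C.cdf a * ((∑ b, lmass C.cdf b * w a b) + w a a)) / 2 := by
  classical
  have e : ∀ B : LMat r 3, w (B 0 1) (B l.castSucc 2) =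
      ∑ a, (if B 0 1 = a then (1 : ℝ) else 0) * w a (B l.castSucc 2) := fun B => by simp
  simp only [e, Finset.mul_sum]
  rw [Finset.sum_comm, Finset.sum_div]
  refine Finset.sum_congr rfl fun a _ => ?_
  have hgg := C.gg 2 l (fun A => if A 0 1 = a then 1 else 0) (w a)
  have hs : ∑ B, C.P 2 B * ((if B 0 1 = a then (1 : ℝ) else 0) * w a (B 0 1)) = lmass C.cdf a * w a a := by
    rw [casc_two C fun x => (if x = a then (1 : ℝ) else 0) * w a x]
    simp
  have ho : ∑ l' ∈ Finset.univ.erase l, ∑ A, C.P 2 A * ((if A 0 1 = a then (1 : ℝ) else 0) * w a (A l l')) =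
      lmass C.cdf a * w a a := by
    rw [← hs]
    obtain rfl | rfl := Fin.exists_fin_two.1 ⟨l, rfl⟩
    · rw [show Finset.univ.erase (0 : Fin 2) = {1} by decide, Finset.sum_singleton]
    · rw [show Finset.univ.erase (1 : Fin 2) = {0} by decide, Finset.sum_singleton]
      refine Finset.sum_congr rfl fun A _ => ?_
      by_cases hA : C.P 2 A = 0
      · simp [hA]
      · show C.P 2 A * (_ * w a (A 1 0)) = _
        rw [C.symm 2 A hA 1 0]
  have h1 : ∑ B, C.P 2 B * (if B 0 1 = a then (1 : ℝ) else 0) = lmass C.cdf a := by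
    rw [casc_two C fun x => if x = a then (1 : ℝ) else 0]
    simp
  rw [ho, h1, casc_two C (w a)] at hgg
  have hl : (Fin.last 2 : Fin 3) = 2 := rfl
  rw [hl] at hgg
  simp only [sub] at hgg
  push_cast at hgg
  have hgg' : 2 * ∑ B, C.P 3 B * ((if B 0 1 = a then (1 : ℝ) else 0) * w a (B l.castSucc 2)) =
      lmass C.cdf a * ∑ b, lmass C.cdf b * w a b + lmass C.cdf a * w a a := hgg
  rw [mul_add, ← hgg']
  ring

/-- Three replicas: two insertions at levels and the overlap of the third pair. -/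
lemma casc_trip (C : Casc r) {q : Fin (r + 1) → ℝ} (u v : Fin (r + 1) → ℝ) :
    ∑ B, C.P 3 B * (u (B 0 1) * v (B 0 2) * q (B 1 2)) =
      (∑ a, lmass C.cdf a * u a * ((∑ b, lmass C.cdf b * (q (min a b) * v b)) + q a * v a +
        v a * ((∑ b, lmass C.cdf b * q (max a b)) - (∑ b, lmass C.cdf b) * q a))) / 2 := by
  have e : ∀ B : LMat r 3, C.P 3 B * (u (B 0 1) * v (B 0 2) * q (B 1 2)) =
      C.P 3 B * (u (B 0 1) * v (B 0 2) * q (min (B 0 1) (B 0 2))) +
        C.P 3 B * (u (B 0 1) * v (B 0 1) * (q (max (B 0 1) (B 1 2)) - q (B 0 1))) := by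
    intro B
    by_cases hB : C.P 3 B = 0
    · simp [hB]
    rw [← mul_add]
    congr 1
    have s := C.symm 3 B hB
    have u1 := C.ultra 3 B hB 1 0 2
    have u2 := C.ultra 3 B hB 0 1 2
    have u3 := C.ultra 3 B hB 0 2 1
    rw [s 1 0] at u1
    rw [s 2 1] at u3
    rcases lt_trichotomy (B 0 1) (B 0 2) with h | h | h
    · have h12 : B 1 2 = B 0 1 := le_antisymm
        (by
          rcases min_le_iff.1 u3 with h' | h'
          · exact absurd h' (not_le.2 h)
          · exact h')
        (by simpa [min_eq_left h.le] using u1)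
      rw [h12, max_self, min_eq_left h.le]
      ring
    · have h12 : B 0 1 ≤ B 1 2 := by simpa [← h] using u1
      rw [← h, min_self, max_eq_right h12]
      ring
    · have h12 : B 1 2 = B 0 2 := le_antisymm
        (by
          rcases min_le_iff.1 u2 with h' | h'
          · exact absurd h' (not_le.2 h)
          · exact h')
        (by simpa [min_eq_right h.le] using u1)
      rw [h12, min_eq_right h.le, max_eq_left h.le]
      ring
  have h0 : ∀ W : Fin (r + 1) → Fin (r + 1) → ℝ,
      ∑ B, C.P 3 B * W (B 0 1) (B 0 2) =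
        (∑ a, lmass C.cdf a * ((∑ b, lmass C.cdf b * W a b) + W a a)) / 2 := fun W => casc_three C 0 W
  have h1 : ∀ W : Fin (r + 1) → Fin (r + 1) → ℝ,
      ∑ B, C.P 3 B * W (B 0 1) (B 1 2) =
        (∑ a, lmass C.cdf a * ((∑ b, lmass C.cdf b * W a b) + W a a)) / 2 := fun W => casc_three C 1 W
  simp only [e, Finset.sum_add_distrib]
  rw [h0 fun a b => u a * v b * q (min a b), h1 fun a b => u a * v a * (q (max a b) - q a),
    ← add_div, ← Finset.sum_add_distrib]
  congr 1
  refine Finset.sum_congr rfl fun a _ => ?_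
  have h2 : ∑ b, lmass C.cdf b * (u a * v b * q (min a b)) =
      u a * ∑ b, lmass C.cdf b * (q (min a b) * v b) := by
    rw [Finset.mul_sum]
    exact Finset.sum_congr rfl fun b _ => by ring
  have h3 : ∑ b, lmass C.cdf b * (u a * v a * (q (max a b) - q a)) =
      u a * v a * ((∑ b, lmass C.cdf b * q (max a b)) - (∑ b, lmass C.cdf b) * q a) := by
    rw [Finset.sum_mul, ← Finset.sum_sub_distrib, Finset.mul_sum]
    exact Finset.sum_congr rfl fun b _ => by ring
  rw [h2, h3, min_self, max_self]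
  ring

/-- The two and three replica terms of a discretisation give the linear map. -/
lemma casc_loop (C : Casc r) {q : Fin (r + 1) → ℝ} (hq : Monotone q)
    (u v : Fin (r + 1) → ℝ) :
    ∑ B, C.P 2 B * (u (B 0 1) * (1 - q (B 0 1) ^ 2) * v (B 0 1)) -
      2 * ∑ B, C.P 3 B * (u (B 0 1) * (q (B 1 2) - q (B 0 1) * q (B 0 2)) * v (B 0 2)) =
      ∑ l, lmass C.cdf l * (u l * loopOp C.cdf q v l) := by
  have e : ∀ B : LMat r 3, C.P 3 B * (u (B 0 1) * (q (B 1 2) - q (B 0 1) * q (B 0 2)) * v (B 0 2)) =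
      C.P 3 B * (u (B 0 1) * v (B 0 2) * q (B 1 2)) -
        C.P 3 B * (u (B 0 1) * q (B 0 1) * (q (B 0 2) * v (B 0 2))) := fun B => by ring
  have h0 := casc_three C 0 fun a b => u a * q a * (q b * v b)
  simp only [Fin.castSucc_zero] at h0
  rw [casc_two C fun x => u x * (1 - q x ^ 2) * v x]
  simp only [e, Finset.sum_sub_distrib]
  rw [casc_trip C, h0, casc_mass C]
  rw [← sub_div, mul_div_cancel₀ _ (two_ne_zero' ℝ), ← Finset.sum_sub_distrib, ← Finset.sum_sub_distrib]
  refine Finset.sum_congr rfl fun a _ => ?_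
  have hop : loopOp C.cdf q v a =
      v a - (∑ b, lmass C.cdf b * q (max a b)) * v a - (∑ b, lmass C.cdf b * (q (min a b) * v b)) +
        q a * ∑ b, lmass C.cdf b * (q b * v b) := by
    have h1 : v a = ∑ b, lmass C.cdf b * v a := by rw [← Finset.sum_mul, casc_mass C, one_mul]
    rw [loopOp, Finset.sum_mul, Finset.mul_sum]
    nth_rw 2 [h1]
    rw [← Finset.sum_sub_distrib, ← Finset.sum_sub_distrib, ← Finset.sum_add_distrib]
    refine Finset.sum_congr rfl fun b _ => ?_
    rw [hq.map_max, hq.map_min]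
    ring
  have hc : ∑ b, lmass C.cdf b * (u a * q a * (q b * v b)) =
      u a * (q a * ∑ b, lmass C.cdf b * (q b * v b)) := by
    rw [Finset.mul_sum, Finset.mul_sum]
    exact Finset.sum_congr rfl fun b _ => by ring
  rw [hop, hc]
  ring

variable {A : Arr} {f : ℝ → ℝ} {B : ℝ}

/-- The two insertions of the derivative of the potential are the conjugate overlaps. -/
lemma two_eq_rval {K : ℕ} (D : Discr A K) (hs : Smf f) (j : Fin (D.r + 1)) :
    D.two (expW f) (deriv f) (deriv f) j = D.rval f j := by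
  have e : (fun x => deriv f x * expW f x) = deriv fun z => Real.exp (f z) := funext fun x => by
    rw [_root_.deriv_exp (hs.bdD.1 x), expW, mul_comm]
  unfold Discr.two quot
  rw [e]
  rfl

lemma clip1_mem (t : ℝ) : |clip1 t| ≤ 1 := by
  rw [clip1, abs_le]
  exact ⟨le_max_left _ _, max_le (by norm_num) (min_le_left _ _)⟩

lemma clip1_eq {t : ℝ} (h0 : 0 ≤ t) (h1 : t ≤ 1) : clip1 t = t := by
  rw [clip1, min_eq_right h1, max_eq_right (by linarith)]

lemma cont_entry {n : ℕ} (a b : Fin n) : Continuous fun R : Mat n => R a b :=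
  (continuous_apply b).comp (continuous_apply a)

/-- The limit of the two and three replica insertions. -/
lemma tendsto_loop_terms (hf : Pot f B) (hs : Smf f) (D : ∀ K, Discr A (K + 2))
    {ψ : ℝ → ℝ} (hψ : Continuous ψ) {C : ℝ} (hC : ∀ t, |ψ t| ≤ C) :
    Tendsto (fun K => ∑ l, lmass (D K).C.cdf l *
        (ψ ((D K).q l) * loopOp (D K).C.cdf (D K).q ((D K).rval f) l)) atTop
      (𝓝 (ratioArr A (Real.exp B) (expW f) (fun R : Mat 2 => ψ (R 0 1) * (1 - clip1 (R 0 1) ^ 2))
          ![deriv f, deriv f] -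
        2 * ratioArr A (Real.exp B) (expW f)
          (fun R : Mat 3 => ψ (R 0 1) * (clip1 (R 1 2) - clip1 (R 0 1) * clip1 (R 0 2)))
          ![deriv f, (fun _ => 1), deriv f])) := by
  have hC0 : 0 ≤ C := (abs_nonneg _).trans (hC 0)
  have hθ := hs.bdD_deriv
  have hW := weight_expW hf hs
  have hclip : Continuous clip1 := continuous_const.max (continuous_const.min continuous_id)
  have hc2 : Continuous fun R : Mat 2 => ψ (R 0 1) * (1 - clip1 (R 0 1) ^ 2) :=
    (hψ.comp (cont_entry 0 1)).mul (continuous_const.sub ((hclip.comp (cont_entry 0 1)).pow 2))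
  have hc3 : Continuous fun R : Mat 3 => ψ (R 0 1) * (clip1 (R 1 2) - clip1 (R 0 1) * clip1 (R 0 2)) :=
    (hψ.comp (cont_entry 0 1)).mul ((hclip.comp (cont_entry 1 2)).sub
      ((hclip.comp (cont_entry 0 1)).mul (hclip.comp (cont_entry 0 2))))
  have T2 := tendsto_pair D hW hθ hθ hc2 ⟨C * 1, fun R => by
    rw [abs_mul]
    refine mul_le_mul (hC _) ?_ (abs_nonneg _) hC0
    have h := sq_le_one_iff_abs_le_one (clip1 (R 0 1)) |>.2 (clip1_mem _)
    rw [abs_le]
    exact ⟨by linarith, by linarith [sq_nonneg (clip1 (R 0 1))]⟩⟩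
  have T3 := tendsto_ratio D hW hc3 ⟨C * 2, fun R => by
    rw [abs_mul]
    refine mul_le_mul (hC _) ((abs_sub _ _).trans ?_) (abs_nonneg _) hC0
    rw [abs_mul]
    have := mul_le_mul (clip1_mem (R 0 1)) (clip1_mem (R 0 2)) (abs_nonneg _) zero_le_one
    linarith [clip1_mem (R 1 2)]⟩ ![deriv f, (fun _ => 1), deriv f]
    (fun l => by fin_cases l <;> simp [hθ.cont, continuous_const])
    (fun l => by
      fin_cases l
      · exact hθ.bdd
      · exact ⟨1, fun y => by simp⟩
      · exact hθ.bdd)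
  refine (T2.sub (T3.const_mul 2)).congr fun K => ?_
  have hη := sm_quot hW hθ (D K).rest
  have e3 : (fun l y => Low.heat (fun x => (![deriv f, (fun _ => 1), deriv f] : Fin 3 → ℝ → ℝ) l x * expW f x)
      (D K).rest y / Low.heat (expW f) (D K).rest y) =
      Function.update (Function.update (fun _ _ => 1) 0 (quot (expW f) (deriv f) (D K).rest)) 2
        (quot (expW f) (deriv f) (D K).rest) := by
    funext l
    fin_cases l
    · rfl
    · exact quot_one hW _
    · rfl
  have hq : ∀ j, clip1 ((D K).q j) = (D K).q j := fun j => clip1_eq ((D K).rangeq j).1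
    (((D K).rangeq j).2.trans (sub_le_self _ (by positivity)))
  rw [e3, (D K).C.ratio_pair (D K).incr_nonneg (hW.heat (D K).rest) hη hη _ (by decide),
    ← casc_loop (D K).C (D K).monoq (fun l => ψ ((D K).q l)) ((D K).rval f)]
  congr 1
  · refine Finset.sum_congr rfl fun E _ => ?_
    rw [two_eq_rval _ hs]
    simp [qmat, hq]
  · congr 1
    refine Finset.sum_congr rfl fun E _ => ?_
    show _ * (_ * (D K).two (expW f) (deriv f) (deriv f) (E 0 2)) = _
    rw [two_eq_rval _ hs]
    simp [qmat, hq]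

/-- Along a convergent sequence the fields of fine discretisations solve the fixed-point equation
weakly. -/
theorem tendsto_sph_loop {f : ℝ → ℝ} {B : ℝ} (hf : Pot f B) (hs : Smf f) {α : ℝ} (hα : 0 < α)
    {A : Arr} {Ns : ℕ → ℕ} (hN : Tendsto Ns atTop atTop) (Ps : ℕ → ℕ) (xs : ∀ j, Fin (Ps j) → ℝ)
    (hxs : ∀ j, xs j ∈ box (Ps j))
    (hgrow : Tendsto (fun j => ((Ps j : ℝ) + 1) ^ 4 * strength (Ns j) ^ 2 / ((Ns j : ℝ) + 1)) atTop (𝓝 0))
    (h : Conv (fun j => sphSys hf (Ns j) (α * ((Ns j : ℝ) + 2)) 0 (xs j)) A)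
    (D : ∀ K, Discr A (K + 2)) (hD : ∀ K, Levels (D K).C.cdf) {ψ : ℝ → ℝ} (hψ : Continuous ψ) {C : ℝ}
    (hC : ∀ t, |ψ t| ≤ C) :
    Tendsto (fun K => ∑ l, lmass (D K).C.cdf l * (ψ ((D K).q l) *
      (loopOp (D K).C.cdf (D K).q (fun i => α * (D K).rval f i) l - (D K).q l))) atTop (𝓝 0) := by
  have T1 := tendsto_loop_terms hf hs D hψ hC
  have hclip : Continuous clip1 := continuous_const.max (continuous_const.min continuous_id)
  have hC0 : 0 ≤ C := (abs_nonneg _).trans (hC 0)
  have T0 := tendsto_discr D (H := fun R : Mat 2 => clip1 (R 0 1) * ψ (R 0 1))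
    ((hclip.comp (cont_entry 0 1)).mul (hψ.comp (cont_entry 0 1))) (C := 1 * C) fun R => by
      rw [abs_mul]
      exact mul_le_mul (clip1_mem _) (hC _) (abs_nonneg _) zero_le_one
  have h0 := (T1.const_mul α).sub T0
  rw [← sph_loop_arr hf hs hα hN Ps xs hxs hgrow h hψ hC, sub_self] at h0
  refine h0.congr fun K => ?_
  have hq : ∀ j, clip1 ((D K).q j) = (D K).q j := fun j => clip1_eq ((D K).rangeq j).1
    (((D K).rangeq j).2.trans (sub_le_self _ (by positivity)))
  have e : ∑ E, (D K).C.P 2 E * (clip1 (qmat (D K).q E 0 1) * ψ (qmat (D K).q E 0 1)) =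
      ∑ l, lmass (D K).C.cdf l * ((D K).q l * ψ ((D K).q l)) := by
    rw [← casc_two (D K).C fun x => (D K).q x * ψ ((D K).q x)]
    exact Finset.sum_congr rfl fun E _ => by simp [qmat, hq]
  rw [e, Finset.mul_sum, ← Finset.sum_sub_distrib]
  refine Finset.sum_congr rfl fun l _ => ?_
  have hlin : loopOp (D K).C.cdf (D K).q (fun i => α * (D K).rval f i) l =
      α * loopOp (D K).C.cdf (D K).q ((D K).rval f) l := by
    simp only [loopOp, Finset.mul_sum]
    exact Finset.sum_congr rfl fun j _ => by ring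
  rw [hlin]
  ring

end Vale.Agent.P157F
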