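import Vale.Agent.P157F.Sph.Defs
import Vale.Agent.P157.Low.SphCavityGain
import Vale.Agent.P157.Low.SphDriftTilt
import Vale.Agent.P157.Low.DriftValues
import Vale.Agent.P157.Low.SphSpinPatterns
import Vale.Agent.P157F.Sph.LoopArr.Ident

/-!
P157: rotation invariance on the sphere and one added pattern, along a convergent sequence.
-/

namespace Vale.Agent.P157F

open MeasureTheory Filter Vale.Agent.P157 Vale.Agent.P157.Low
open scoped Topology RealInnerProductSpace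

variable {f : ℝ → ℝ} {B : ℝ}

/-- The loop equation of a limit array for smooth test functions. -/
lemma sph_loop_smooth (hf : Pot f B) (hs : Smf f) {α : ℝ} (hα : 0 < α)
    {A : Arr} {Ns : ℕ → ℕ} (hN : Tendsto Ns atTop atTop) (Ps : ℕ → ℕ) (xs : ∀ j, Fin (Ps j) → ℝ)
    (hxs : ∀ j, xs j ∈ box (Ps j))
    (hgrow : Tendsto (fun j => ((Ps j : ℝ) + 1) ^ 4 * strength (Ns j) ^ 2 / ((Ns j : ℝ) + 1)) atTop (𝓝 0))
    (h : Conv (fun j => sphSys hf (Ns j) (α * ((Ns j : ℝ) + 2)) 0 (xs j)) A)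
    {φ : ℝ → ℝ} (hφ : ContDiff ℝ 1 φ) :
    ∫ R, clip1 (R 0 1) * φ (clip1 (R 0 1)) ∂A.law 2 =
      α * (ratioArr A (Real.exp B) (expW f)
          (fun R : Mat 2 => φ (clip1 (R 0 1)) * (1 - clip1 (R 0 1) ^ 2)) ![deriv f, deriv f] -
        2 * ratioArr A (Real.exp B) (expW f)
          (fun R : Mat 3 => φ (clip1 (R 0 1)) * (clip1 (R 1 2) - clip1 (R 0 1) * clip1 (R 0 2)))
          ![deriv f, (fun _ => 1), deriv f]) := by
  obtain ⟨hfd, hfb, hf'⟩ := hs.bdD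
  have hd : BdD 1 f := ⟨hfd, hfb, hf'.cont, hf'.bdd⟩
  obtain ⟨b, hb⟩ := hf'.bdd
  have hf'c : Continuous (deriv f) := hf'.cont
  obtain ⟨D1, hD1⟩ := isCompact_Icc.exists_bound_of_continuousOn
    (hφ.continuous.continuousOn (s := Set.Icc (-1 : ℝ) 1))
  obtain ⟨D2, hD2⟩ := isCompact_Icc.exists_bound_of_continuousOn
    ((hφ.continuous_deriv le_rfl).continuousOn (s := Set.Icc (-1 : ℝ) 1))
  set D := max D1 D2
  have hD : ∀ t, |t| ≤ 1 → |φ t| ≤ D ∧ |deriv φ t| ≤ D := fun t ht =>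
    ⟨(hD1 t (abs_le.1 ht)).trans (le_max_left _ _), (hD2 t (abs_le.1 ht)).trans (le_max_right _ _)⟩
  have hD0 : 0 ≤ D := (abs_nonneg _).trans (hD 0 (by simp)).1
  have hW := weight_expW hf hs
  -- the test functions
  set Φ0 : Mat 2 → ℝ := fun R => clip1 (R 0 1) * φ (clip1 (R 0 1)) with hΦ0
  set Φ2 : Mat 2 → ℝ := fun R => φ (clip1 (R 0 1)) * (1 - clip1 (R 0 1) ^ 2) with hΦ2
  set Φ3 : Mat 3 → ℝ := fun R => φ (clip1 (R 0 1)) * (clip1 (R 1 2) - clip1 (R 0 1) * clip1 (R 0 2))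
    with hΦ3
  have hφc : ∀ t, |φ (clip1 t)| ≤ D := fun t => (hD _ (abs_clip1_le t)).1
  have hcl := continuous_clip1
  have hφcont := hφ.continuous
  have c0 : Continuous Φ0 := by rw [hΦ0]; fun_prop
  have c2 : Continuous Φ2 := by rw [hΦ2]; fun_prop
  have c3 : Continuous Φ3 := by rw [hΦ3]; fun_prop
  have b0 : ∀ R, |Φ0 R| ≤ D := fun R => by
    rw [hΦ0, abs_mul]
    exact (mul_le_mul (abs_clip1_le _) (hφc _) (abs_nonneg _) zero_le_one).trans_eq (one_mul D)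
  have b2 : ∀ R, |Φ2 R| ≤ D * 2 := fun R => by
    rw [hΦ2, abs_mul]
    refine mul_le_mul (hφc _) ((abs_sub _ _).trans ?_) (abs_nonneg _) hD0
    rw [abs_one, abs_pow]
    linarith [pow_le_one₀ (n := 2) (abs_nonneg _) (abs_clip1_le (R 0 1))]
  have b3 : ∀ R, |Φ3 R| ≤ D * 2 := fun R => by
    rw [hΦ3, abs_mul]
    refine mul_le_mul (hφc _) ((abs_sub _ _).trans ?_) (abs_nonneg _) hD0
    rw [abs_mul]
    linarith [abs_clip1_le (R 1 2), mul_le_one₀ (abs_clip1_le (R 0 1)) (abs_nonneg _) (abs_clip1_le (R 0 2))]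
  set S := fun j => sphSys hf (Ns j) (α * ((Ns j : ℝ) + 2)) 0 (xs j) with hS
  set L : ℕ → ℝ := fun j => (S j).expect Φ0
  set U2 : ℕ → ℝ := fun j => ((S j).tiltF hf).avgRep 2
    (fun p x => Φ2 ((S j).gram x) * ∏ l, ![deriv f, deriv f] l ⟪p.2, (S j).v (x l)⟫)
  set U3 : ℕ → ℝ := fun j => ((S j).tiltF hf).avgRep 3
    (fun p x => Φ3 ((S j).gram x) * ∏ l, ![deriv f, (fun _ => 1), deriv f] l ⟪p.2, (S j).v (x l)⟫)
  have h1 : Tendsto L atTop (𝓝 (∫ R, Φ0 R ∂A.law 2)) := h 2 Φ0 c0 ⟨D, b0⟩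
  have h2 : Tendsto U2 atTop (𝓝 (ratioArr A (Real.exp B) (expW f) Φ2 ![deriv f, deriv f])) :=
    h.insert hW (measurable_expW hf) (Real.exp_pos (-B)) (expW_mem hf) c2 ⟨_, b2⟩ _
      (Fin.forall_fin_two.2 ⟨hf'c, hf'c⟩) (Fin.forall_fin_two.2 ⟨⟨b, hb⟩, ⟨b, hb⟩⟩)
  have h3 : Tendsto U3 atTop
      (𝓝 (ratioArr A (Real.exp B) (expW f) Φ3 ![deriv f, (fun _ => 1), deriv f])) :=
    h.insert hW (measurable_expW hf) (Real.exp_pos (-B)) (expW_mem hf) c3 ⟨_, b3⟩ _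
      (fun l => by fin_cases l <;> first | exact hf'c | exact continuous_const)
      (fun l => by fin_cases l <;> first | exact ⟨b, hb⟩ | exact ⟨1, fun _ => by simp⟩)
  -- the finite identity
  have herr : ∀ j, |(Ns j : ℝ) * L j - α * ((Ns j : ℝ) + 2) * (U2 j - 2 * U3 j)| ≤
      D + 16 * D * (((Ps j : ℝ) + 1) ^ 4 * strength (Ns j) ^ 2) := fun j => by
    have hxb : ∀ q, |xs j q| ≤ 2 := fun q => by
      obtain ⟨l, u⟩ := hxs j q (Set.mem_univ q)
      rw [abs_of_nonneg (by linarith)]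
      exact u
    have hfin := sph_loop_fin hf hd (Ns j) (lam := α * ((Ns j : ℝ) + 2)) (by positivity) (xs j) hφ hD
    have e1 : L j = (S j).avgRep 2 (fun _ r => ovl2 r * φ (ovl2 r)) :=
      integral_congr_ae (Eventually.of_forall fun ω => integral_congr_ae (Eventually.of_forall fun r => by
        show clip1 (ovl2 r) * φ (clip1 (ovl2 r)) = ovl2 r * φ (ovl2 r)
        rw [clip1_of_abs_le (abs_ovl2_le r)]))
    have habs : ∀ a c : Sph (Ns j + 1), |⟪(a : Sp (Ns j + 1)), (c : Sp (Ns j + 1))⟫| ≤ 1 := fun a c =>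
      (abs_real_inner_le_norm _ _).trans_eq (by simp [mem_sphere_zero_iff_norm.1 a.2, mem_sphere_zero_iff_norm.1 c.2])
    have e2 : U2 j = ((S j).tiltF hf).avgRep 2 (fun p (r : Fin 2 → Sph (Ns j + 1)) =>
        φ ⟪(r 0 : Sp (Ns j + 1)), (r 1 : Sp (Ns j + 1))⟫ *
            (1 - ⟪(r 0 : Sp (Ns j + 1)), (r 1 : Sp (Ns j + 1))⟫ ^ 2) *
          (deriv f ⟪p.2, (r 0 : Sp (Ns j + 1))⟫ * deriv f ⟪p.2, (r 1 : Sp (Ns j + 1))⟫)) :=
      integral_congr_ae (Eventually.of_forall fun p =>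
        integral_congr_ae (Eventually.of_forall fun (r : Fin 2 → Sph (Ns j + 1)) => by
          simp only [hΦ2, Fin.prod_univ_two, Matrix.cons_val_zero, Matrix.cons_val_one]
          show φ (clip1 ⟪(r 0 : Sp (Ns j + 1)), (r 1 : Sp (Ns j + 1))⟫) *
            (1 - clip1 ⟪(r 0 : Sp (Ns j + 1)), (r 1 : Sp (Ns j + 1))⟫ ^ 2) * _ = _
          rw [clip1_of_abs_le (habs _ _)]
          rfl))
    have e3 : U3 j = ((S j).tiltF hf).avgRep 3 (fun p (r : Fin 3 → Sph (Ns j + 1)) =>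
        φ ⟪(r 0 : Sp (Ns j + 1)), (r 1 : Sp (Ns j + 1))⟫ *
            (⟪(r 1 : Sp (Ns j + 1)), (r 2 : Sp (Ns j + 1))⟫ -
              ⟪(r 0 : Sp (Ns j + 1)), (r 1 : Sp (Ns j + 1))⟫ * ⟪(r 0 : Sp (Ns j + 1)), (r 2 : Sp (Ns j + 1))⟫) *
          (deriv f ⟪p.2, (r 0 : Sp (Ns j + 1))⟫ * deriv f ⟪p.2, (r 2 : Sp (Ns j + 1))⟫)) :=
      integral_congr_ae (Eventually.of_forall fun p =>
        integral_congr_ae (Eventually.of_forall fun (r : Fin 3 → Sph (Ns j + 1)) => by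
          simp only [hΦ3, Fin.prod_univ_three, Matrix.cons_val_zero, Matrix.cons_val_one,
            Matrix.cons_val_two, Matrix.tail_cons, Matrix.head_cons, mul_one]
          show φ (clip1 ⟪(r 0 : Sp (Ns j + 1)), (r 1 : Sp (Ns j + 1))⟫) *
            (clip1 ⟪(r 1 : Sp (Ns j + 1)), (r 2 : Sp (Ns j + 1))⟫ -
              clip1 ⟪(r 0 : Sp (Ns j + 1)), (r 1 : Sp (Ns j + 1))⟫ *
                clip1 ⟪(r 0 : Sp (Ns j + 1)), (r 2 : Sp (Ns j + 1))⟫) * _ = _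
          rw [clip1_of_abs_le (habs _ _), clip1_of_abs_le (habs _ _), clip1_of_abs_le (habs _ _)]
          rfl))
    rw [e1, e2, e3]
    refine hfin.trans (add_le_add le_rfl ?_)
    have hs1 : ∑ q, |xs j q| ≤ 2 * ((Ps j : ℝ) + 1) :=
      (Finset.sum_le_sum fun q _ => hxb q).trans (by simp; linarith)
    have hs2 : ∑ q, |xs j q| * ((q : ℕ) + 1) ≤ 2 * ((Ps j : ℝ) + 1) ^ 2 := by
      refine (Finset.sum_le_sum (g := fun _ => 2 * ((Ps j : ℝ) + 1)) fun q _ => mul_le_mul (hxb q) ?_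
        (by positivity) zero_le_two).trans ?_
      · have hq : ((q : ℕ) : ℝ) ≤ (Ps j : ℝ) := Nat.cast_le.2 q.isLt.le
        linarith
      · simp
        nlinarith [Nat.cast_nonneg (α := ℝ) (Ps j)]
    have hmul := mul_le_mul hs2 hs1 (Finset.sum_nonneg fun q _ => abs_nonneg _) (by positivity)
    calc 4 * strength (Ns j) ^ 2 * D * (∑ q, |xs j q| * ((q : ℕ) + 1)) * ∑ q, |xs j q|
        = 4 * strength (Ns j) ^ 2 * D * ((∑ q, |xs j q| * ((q : ℕ) + 1)) * ∑ q, |xs j q|) := by ring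
      _ ≤ 4 * strength (Ns j) ^ 2 * D * (4 * ((Ps j : ℝ) + 1) ^ 4) :=
          mul_le_mul_of_nonneg_left (hmul.trans (by
            nlinarith [pow_le_pow_right₀ (show (1 : ℝ) ≤ (Ps j : ℝ) + 1 by simp) (show 3 ≤ 4 by norm_num)]))
            (by positivity)
      _ = _ := by ring
  -- divide and let the size grow
  have hN' : Tendsto (fun j => (Ns j : ℝ)) atTop atTop := tendsto_natCast_atTop_atTop.comp hN
  have hd0 : Tendsto (fun j => L j - α * (1 + 2 / (Ns j : ℝ)) * (U2 j - 2 * U3 j)) atTop (𝓝 0) := by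
    refine squeeze_zero_norm' (a := fun j => D / (Ns j : ℝ) +
      32 * D * (((Ps j : ℝ) + 1) ^ 4 * strength (Ns j) ^ 2 / ((Ns j : ℝ) + 1))) ?_ ?_
    · filter_upwards [hN.eventually (eventually_ge_atTop 1)] with j hj
      have hn : (1 : ℝ) ≤ (Ns j : ℝ) := by exact_mod_cast hj
      rw [Real.norm_eq_abs, show L j - α * (1 + 2 / (Ns j : ℝ)) * (U2 j - 2 * U3 j) =
        ((Ns j : ℝ) * L j - α * ((Ns j : ℝ) + 2) * (U2 j - 2 * U3 j)) / (Ns j : ℝ) by field_simp,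
        abs_div, abs_of_pos (by linarith : (0 : ℝ) < (Ns j : ℝ))]
      refine (div_le_div_of_nonneg_right (herr j) (by linarith)).trans ?_
      rw [add_div]
      refine add_le_add le_rfl ?_
      set Q := ((Ps j : ℝ) + 1) ^ 4 * strength (Ns j) ^ 2
      have hQ : 0 ≤ Q := by positivity
      rw [mul_div_assoc', div_le_div_iff₀ (by linarith) (by linarith)]
      nlinarith [mul_nonneg hD0 hQ]
    · simpa using ((tendsto_const_nhds (x := D)).div_atTop hN').add (hgrow.const_mul (32 * D))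
  have hlim : Tendsto (fun j => L j - α * (1 + 2 / (Ns j : ℝ)) * (U2 j - 2 * U3 j)) atTop
      (𝓝 ((∫ R, Φ0 R ∂A.law 2) - α * (ratioArr A (Real.exp B) (expW f) Φ2 ![deriv f, deriv f] -
        2 * ratioArr A (Real.exp B) (expW f) Φ3 ![deriv f, (fun _ => 1), deriv f]))) := by
    have hc : Tendsto (fun j => α * (1 + 2 / (Ns j : ℝ))) atTop (𝓝 α) := by
      simpa using (((tendsto_const_nhds (x := (2 : ℝ))).div_atTop hN').const_add 1).const_mul α
    exact h1.sub (hc.mul (h2.sub (h3.const_mul 2)))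
  exact sub_eq_zero.1 (tendsto_nhds_unique hlim hd0)

/-- The loop equation of a limit array. -/
theorem sph_loop_arr {f : ℝ → ℝ} {B : ℝ} (hf : Pot f B) (hs : Smf f) {α : ℝ} (hα : 0 < α)
    {A : Arr} {Ns : ℕ → ℕ} (hN : Tendsto Ns atTop atTop) (Ps : ℕ → ℕ) (xs : ∀ j, Fin (Ps j) → ℝ)
    (hxs : ∀ j, xs j ∈ box (Ps j))
    (hgrow : Tendsto (fun j => ((Ps j : ℝ) + 1) ^ 4 * strength (Ns j) ^ 2 / ((Ns j : ℝ) + 1)) atTop (𝓝 0))
    (h : Conv (fun j => sphSys hf (Ns j) (α * ((Ns j : ℝ) + 2)) 0 (xs j)) A)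
    {ψ : ℝ → ℝ} (hψ : Continuous ψ) {C : ℝ} (hC : ∀ t, |ψ t| ≤ C) :
    ∫ R, clip1 (R 0 1) * ψ (R 0 1) ∂A.law 2 =
      α * (ratioArr A (Real.exp B) (expW f) (fun R : Mat 2 => ψ (R 0 1) * (1 - clip1 (R 0 1) ^ 2))
          ![deriv f, deriv f] -
        2 * ratioArr A (Real.exp B) (expW f)
          (fun R : Mat 3 => ψ (R 0 1) * (clip1 (R 1 2) - clip1 (R 0 1) * clip1 (R 0 2)))
          ![deriv f, (fun _ => 1), deriv f]) := by
  have hW := weight_expW hf hs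
  obtain ⟨b, hb⟩ := hs.bdD_deriv.bdd
  have hf'c := hs.bdD_deriv.cont
  set Cb := max b 1
  obtain ⟨L2, hL20, hL2⟩ := exists_ratioArr_lip A hW (θ := ![deriv f, deriv f])
    (Fin.forall_fin_two.2 ⟨hf'c, hf'c⟩) (C := Cb)
    (Fin.forall_fin_two.2 ⟨fun y => (hb y).trans (le_max_left _ _), fun y => (hb y).trans (le_max_left _ _)⟩)
  obtain ⟨L3, hL30, hL3⟩ := exists_ratioArr_lip A hW (θ := ![deriv f, (fun _ => 1), deriv f])
    (fun l => by fin_cases l <;> first | exact hf'c | exact continuous_const) (C := Cb)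
    (fun l y => by
      fin_cases l <;> first | exact (hb y).trans (le_max_left _ _) |
        exact abs_one.trans_le (le_max_right _ _))
  set I := ∫ R, clip1 (R 0 1) * ψ (R 0 1) ∂A.law 2 with hI
  set T2 := ratioArr A (Real.exp B) (expW f) (fun R : Mat 2 => ψ (R 0 1) * (1 - clip1 (R 0 1) ^ 2))
    ![deriv f, deriv f] with hT2
  set T3 := ratioArr A (Real.exp B) (expW f)
    (fun R : Mat 3 => ψ (R 0 1) * (clip1 (R 1 2) - clip1 (R 0 1) * clip1 (R 0 2)))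
    ![deriv f, (fun _ => 1), deriv f] with hT3
  set K := 1 + α * (2 * L2 + 4 * L3)
  have hK : 0 < K := by positivity
  suffices hmain : ∀ ε, 0 < ε → |I - α * (T2 - 2 * T3)| ≤ K * ε by
    by_contra hne
    have hpos : 0 < |I - α * (T2 - 2 * T3)| := abs_pos.2 (sub_ne_zero.2 hne)
    have h2 := hmain (|I - α * (T2 - 2 * T3)| / (2 * K)) (by positivity)
    rw [show K * (|I - α * (T2 - 2 * T3)| / (2 * K)) = |I - α * (T2 - 2 * T3)| / 2 by field_simp] at h2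
    linarith
  intro ε hε
  obtain ⟨p, hp⟩ := exists_polynomial_near_of_continuousOn (-1) 1 ψ hψ.continuousOn ε hε
  have hsm := sph_loop_smooth hf hs hα hN Ps xs hxs hgrow h (φ := fun t => p.eval t)
    (by simpa using p.contDiff_aeval (𝕜 := ℝ) 1)
  have hC0 : 0 ≤ C := (abs_nonneg _).trans (hC 0)
  have hpC : ∀ t, |p.eval (clip1 t)| ≤ C + ε := fun t => by
    have h1 := hp (clip1 t) (abs_le.1 (abs_clip1_le t))
    linarith [abs_sub_abs_le_abs_sub (p.eval (clip1 t)) (ψ (clip1 t)), hC (clip1 t)]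
  have hcl := continuous_clip1
  have hP : ∀ {n : ℕ} (G : Mat n → ℝ), Measurable G → (∀ R, |G R| ≤ 2) → ∀ (i k : Fin n),
      (∀ R, |p.eval (clip1 (R i k)) * G R| ≤ (C + ε) * 2) ∧ (∀ R, |ψ (R i k) * G R| ≤ (C + ε) * 2) ∧
      ∫ R, |p.eval (clip1 (R i k)) * G R - ψ (R i k) * G R| ∂A.law n ≤ 2 * ε := fun {n} G _ hG i k => by
    refine ⟨fun R => ?_, fun R => ?_, ?_⟩
    · rw [abs_mul]; exact mul_le_mul (hpC _) (hG R) (abs_nonneg _) (by positivity)
    · rw [abs_mul]; exact mul_le_mul ((hC _).trans (by linarith)) (hG R) (abs_nonneg _) (by positivity)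
    · have := A.prob n
      refine (le_abs_self _).trans (((Real.norm_eq_abs _).symm.trans_le
        (norm_integral_le_of_norm_le_const (C := 2 * ε) ?_)).trans_eq (by rw [probReal_univ, mul_one]))
      filter_upwards [A.bdd n] with R hR
      rw [Real.norm_eq_abs, abs_abs, ← sub_mul, abs_mul, clip1_of_abs_le (hR i k), mul_comm 2 ε]
      exact mul_le_mul (hp _ (abs_le.1 (hR i k))).le (hG R) (abs_nonneg _) hε.le
  have hsq : ∀ R : Mat 2, |1 - clip1 (R 0 1) ^ 2| ≤ 2 := fun R => by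
    refine (abs_sub _ _).trans ?_
    rw [abs_one, abs_pow]
    linarith [pow_le_one₀ (n := 2) (abs_nonneg _) (abs_clip1_le (R 0 1))]
  have htri : ∀ R : Mat 3, |clip1 (R 1 2) - clip1 (R 0 1) * clip1 (R 0 2)| ≤ 2 := fun R => by
    refine (abs_sub _ _).trans ?_
    rw [abs_mul]
    linarith [abs_clip1_le (R 1 2), mul_le_one₀ (abs_clip1_le (R 0 1)) (abs_nonneg _) (abs_clip1_le (R 0 2))]
  obtain ⟨a2, a2', d2⟩ := hP (fun R : Mat 2 => 1 - clip1 (R 0 1) ^ 2) (by fun_prop) hsq 0 1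
  obtain ⟨a3, a3', d3⟩ := hP (fun R : Mat 3 => clip1 (R 1 2) - clip1 (R 0 1) * clip1 (R 0 2))
    (by fun_prop) htri 0 1
  have e2 := (hL2 (fun R : Mat 2 => p.eval (clip1 (R 0 1)) * (1 - clip1 (R 0 1) ^ 2))
    (fun R : Mat 2 => ψ (R 0 1) * (1 - clip1 (R 0 1) ^ 2)) (by fun_prop) (by fun_prop) _ a2 a2').trans
    (mul_le_mul_of_nonneg_left d2 hL20)
  have e3 := (hL3 (fun R : Mat 3 => p.eval (clip1 (R 0 1)) * (clip1 (R 1 2) - clip1 (R 0 1) * clip1 (R 0 2)))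
    (fun R : Mat 3 => ψ (R 0 1) * (clip1 (R 1 2) - clip1 (R 0 1) * clip1 (R 0 2))) (by fun_prop) (by fun_prop)
    _ a3 a3').trans (mul_le_mul_of_nonneg_left d3 hL30)
  rw [← hT2] at e2
  rw [← hT3] at e3
  have e1 : |I - ∫ R, clip1 (R 0 1) * p.eval (clip1 (R 0 1)) ∂A.law 2| ≤ ε := by
    have := A.prob 2
    have i1 : Integrable (fun R : Mat 2 => clip1 (R 0 1) * ψ (R 0 1)) (A.law 2) :=
      Integrable.of_bound (by fun_prop) (1 * C) (Eventually.of_forall fun R => by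
        rw [Real.norm_eq_abs, abs_mul]
        exact mul_le_mul (abs_clip1_le _) (hC _) (abs_nonneg _) zero_le_one)
    have i2 : Integrable (fun R : Mat 2 => clip1 (R 0 1) * p.eval (clip1 (R 0 1))) (A.law 2) :=
      Integrable.of_bound (by fun_prop) (1 * (C + ε)) (Eventually.of_forall fun R => by
        rw [Real.norm_eq_abs, abs_mul]
        exact mul_le_mul (abs_clip1_le _) (hpC _) (abs_nonneg _) zero_le_one)
    rw [hI, ← integral_sub i1 i2, ← Real.norm_eq_abs]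
    refine (norm_integral_le_of_norm_le_const (C := 1 * ε) ?_).trans (by simp)
    filter_upwards [A.bdd 2] with R hR
    rw [Real.norm_eq_abs, clip1_of_abs_le (hR 0 1), ← mul_sub, abs_mul, abs_sub_comm]
    exact mul_le_mul (hR 0 1) (hp _ (abs_le.1 (hR 0 1))).le (abs_nonneg _) zero_le_one
  rw [hsm] at e1
  obtain ⟨u1, v1⟩ := abs_le.1 e1
  obtain ⟨u2, v2⟩ := abs_le.1 e2
  obtain ⟨u3, v3⟩ := abs_le.1 e3
  have m1 := mul_le_mul_of_nonneg_left u2 hα.le
  have m2 := mul_le_mul_of_nonneg_left v2 hα.le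
  have m3 := mul_le_mul_of_nonneg_left u3 hα.le
  have m4 := mul_le_mul_of_nonneg_left v3 hα.le
  rw [abs_le]
  constructor <;> simp only [K] <;> linarith

end Vale.Agent.P157F
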