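import Vale.Agent.P157F.Sph.Defs
import Vale.Agent.P157F.Low.Monotone
import Vale.Agent.P157.Low.CavityValue
import Vale.Agent.P157.Low.TiltLimitArr
import Vale.Agent.P166F.Up.StepLaw

/-!
P157: weak solutions of the fixed-point equation on the sphere are close to the fields of the path.
-/

namespace Vale.Agent.P157F

open MeasureTheory Filter Vale.Agent.P157 Vale.Agent.P157.Low Vale.Agent.P166F
open scoped Topology

variable {k : ℕ} {m p : Fin (k + 1) → ℝ}

lemma mass_pos (hm : Levels m) (l : Fin (k + 1)) : 0 < lmass m l := by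
  rw [lmass]
  split_ifs with h
  · exact sub_pos.2 (hm.strict (show l < ⟨l + 1, by omega⟩ from Nat.lt_succ_self _))
  · exact sub_pos.2 (hm.ltOne l)

lemma mass_sum (hm : Levels m) : ∑ l, lmass m l = 1 := Vale.Agent.P166F.sum_lmass hm

/-- The weight of a level in the fixed-point map. -/
noncomputable def lev (m p : Fin (k + 1) → ℝ) (l : Fin (k + 1)) : ℝ := tail (stepLaw m p) (p l)

lemma lev_eq (hm : Levels m) (l : Fin (k + 1)) :
    lev m p l = ∑ j, lmass m j * (1 - max (p l) (p j)) :=
  Vale.Agent.P166F.integral_stepLaw hm fun r => 1 - max (p l) r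

lemma lev_pos (hm : Levels m) (hp : Path p) {ρ : ℝ} (hρ : ∀ j, p j ≤ ρ) (l : Fin (k + 1)) :
    1 - ρ ≤ lev m p l := by
  rw [lev_eq hm]
  calc 1 - ρ = ∑ j, lmass m j * (1 - ρ) := by rw [← Finset.sum_mul, mass_sum hm, one_mul]
    _ ≤ _ := Finset.sum_le_sum fun j _ => mul_le_mul_of_nonneg_left
      (by linarith [max_le (hρ l) (hρ j)]) (mass_pos hm j).le

lemma lev_pos' (hm : Levels m) (hp : Path p) (l : Fin (k + 1)) : 0 < lev m p l :=
  (sub_pos.2 (hp.ltOne _)).trans_le (lev_pos hm hp (fun j => hp.mono (Fin.le_last j)) l)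

lemma sphField_zero : sphField m p 0 = p 0 / lev m p 0 ^ 2 := by
  simp [sphField, lev]

lemma sphField_succ (i : Fin k) : sphField m p i.succ = sphField m p i.castSucc +
    (p i.succ - p i.castSucc) / (lev m p i.castSucc * lev m p i.succ) := by
  simp only [sphField, lev, Fin.val_succ, Fin.val_castSucc]
  rw [add_assoc]
  congr 1
  rw [← Finset.sum_ite_eq' Finset.univ i
    (fun j : Fin k => (p j.succ - p j.castSucc) /
      (tail (stepLaw m p) (p j.castSucc) * tail (stepLaw m p) (p j.succ))) |>.trans (if_pos (Finset.mem_univ i)),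
    ← Finset.sum_add_distrib]
  refine Finset.sum_congr rfl fun j _ => ?_
  rcases lt_trichotomy (j : ℕ) (i : ℕ) with h | h | h
  · rw [if_pos (show (j : ℕ) < i + 1 by omega), if_pos h, if_neg (fun e => by rw [e] at h; omega), add_zero]
  · obtain rfl : j = i := Fin.ext h
    simp
  · rw [if_neg (show ¬ (j : ℕ) < i + 1 by omega), if_neg (show ¬ (j : ℕ) < i by omega),
      if_neg (fun e => by rw [e] at h; omega), add_zero]

/-- The fields of a path solve the equation exactly. -/
theorem loopOp_sphField {k : ℕ} {m p : Fin (k + 1) → ℝ} (hm : Levels m) (hp : Path p)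
    (l : Fin (k + 1)) : loopOp m p (sphField m p) l = p l := by
  set s := sphField m p
  set T := lev m p with hT
  set C := ∑ j, lmass m j * ((1 - p j) * s j) with hC
  have hpos := lev_pos' hm hp
  have hTe : ∀ i, T i = ∑ j, lmass m j * (1 - max (p i) (p j)) := lev_eq hm
  -- the weight at the lowest level
  have hQ : ∀ i : Fin (k + 1),
      (∑ j, lmass m j * ((1 - p j) * s (min j i))) + (1 - p i) / T i = 1 / T 0 := by
    intro i
    induction i using Fin.induction with
    | zero =>
      have e : ∀ j : Fin (k + 1), lmass m j * ((1 - p j) * s (min j 0)) =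
          lmass m j * (1 - max (p 0) (p j)) * s 0 := fun j => by
        rw [min_eq_right (Fin.zero_le j), max_eq_right (hp.mono (Fin.zero_le j))]
        ring
      simp only [e, ← Finset.sum_mul, ← hTe]
      show T 0 * sphField m p 0 + _ = _
      rw [sphField_zero]
      have := (hpos 0).ne'
      simp only [← hT]
      field_simp
      ring
    | succ i ih =>
      set d := p i.succ - p i.castSucc with hd
      set Ms := ∑ j, if j ≤ i.castSucc then lmass m j else 0 with hMs
      have hlt : ∀ j : Fin (k + 1), ¬ j ≤ i.castSucc ↔ i.succ ≤ j := fun j => by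
        simp [Fin.le_def]
      have e : ∀ j : Fin (k + 1), lmass m j * ((1 - p j) * s (min j i.succ)) -
          lmass m j * ((1 - p j) * s (min j i.castSucc)) =
          (lmass m j * (1 - max (p i.succ) (p j)) -
            (if j ≤ i.castSucc then lmass m j else 0) * (1 - p i.succ)) *
              (s i.succ - s i.castSucc) := fun j => by
        by_cases h : j ≤ i.castSucc
        · have h2 : j ≤ i.succ := h.trans (Fin.castSucc_le_succ i)
          rw [if_pos h, min_eq_left h, min_eq_left h2, max_eq_left (hp.mono h2)]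
          ring
        · have h2 := (hlt j).1 h
          rw [if_neg h, min_eq_right h2, min_eq_right ((Fin.castSucc_le_succ i).trans h2),
            max_eq_right (hp.mono h2)]
          ring
      have e2 : T i.succ - T i.castSucc = -(d * Ms) := by
        rw [hTe, hTe, hMs, Finset.mul_sum, ← Finset.sum_sub_distrib, ← Finset.sum_neg_distrib]
        refine Finset.sum_congr rfl fun j _ => ?_
        by_cases h : j ≤ i.castSucc
        · rw [if_pos h, max_eq_left (hp.mono h),
            max_eq_left (hp.mono (h.trans (Fin.castSucc_le_succ i))), hd]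
          ring
        · have h2 := (hlt j).1 h
          rw [if_neg h, max_eq_right (hp.mono h2),
            max_eq_right (hp.mono ((Fin.castSucc_le_succ i).trans h2))]
          ring
      have e3 : (∑ j, lmass m j * ((1 - p j) * s (min j i.succ))) -
          (∑ j, lmass m j * ((1 - p j) * s (min j i.castSucc))) =
          (T i.succ - Ms * (1 - p i.succ)) * (d / (T i.castSucc * T i.succ)) := by
        rw [← Finset.sum_sub_distrib, Finset.sum_congr rfl fun j _ => e j, ← Finset.sum_mul,
          Finset.sum_sub_distrib, ← hTe, ← Finset.sum_mul]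
        show _ * (sphField m p i.succ - sphField m p i.castSucc) = _
        rw [sphField_succ, add_sub_cancel_left]
      have := (hpos i.succ).ne'
      have := (hpos i.castSucc).ne'
      rw [← ih]
      have e4 : (T i.succ - Ms * (1 - p i.succ)) * (d / (T i.castSucc * T i.succ)) =
          (1 - p i.castSucc) / T i.castSucc - (1 - p i.succ) / T i.succ := by
        rw [mul_div_assoc', div_sub_div _ _ (hpos i.castSucc).ne' (hpos i.succ).ne']
        congr 1
        linear_combination -(1 - p i.succ) * e2 + T i.succ * hd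
      linarith
  have hC0 : 1 + C = 1 / T 0 := by
    have h := hQ (Fin.last k)
    have hlast : T (Fin.last k) = 1 - p (Fin.last k) := by
      rw [hTe]
      simp only [max_eq_left (hp.mono (Fin.le_last _)), ← Finset.sum_mul, mass_sum hm, one_mul]
    rw [hlast, div_self (sub_pos.2 (hp.ltOne _)).ne'] at h
    simp only [min_eq_left (Fin.le_last _)] at h
    linarith
  -- the loop and the inverse weight together
  set G : Fin (k + 1) → ℝ := fun i => ∑ j, lmass m j * ((p (min i j) - p i * p j) * s j)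
  have hL : ∀ i, loopOp m p s i = T i * s i - G i := fun i => by
    rw [hTe, Finset.sum_mul, ← Finset.sum_sub_distrib, loopOp]
    refine Finset.sum_congr rfl fun j _ => ?_
    rw [hp.mono.map_min]
    ring
  suffices h : ∀ i, (1 / T i = 1 + ∑ j, lmass m j * (s (max i j) - p j * s j)) ∧
      T i * s i - G i = p i by rw [hL]; exact (h l).2
  intro i
  induction i using Fin.induction with
  | zero =>
    refine ⟨?_, ?_⟩
    · rw [← hC0, hC]
      congr 1
      refine Finset.sum_congr rfl fun j _ => ?_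
      rw [max_eq_right (Fin.zero_le j)]
      ring
    · have e : G 0 = p 0 * C := by
        rw [hC, Finset.mul_sum]
        refine Finset.sum_congr rfl fun j _ => ?_
        rw [min_eq_left (Fin.zero_le j)]
        ring
      rw [e]
      show T 0 * sphField m p 0 - _ = _
      rw [sphField_zero, ← hT, show C = 1 / T 0 - 1 by linarith]
      have := (hpos 0).ne'
      field_simp
      ring
  | succ i ih =>
    obtain ⟨ih1, ih2⟩ := ih
    set d := p i.succ - p i.castSucc with hd
    set Ms := ∑ j, if j ≤ i.castSucc then lmass m j else 0 with hMs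
    set Δ := s i.succ - s i.castSucc with hΔ
    have hΔe : Δ = d / (T i.castSucc * T i.succ) := by
      rw [hΔ]
      show sphField m p i.succ - sphField m p i.castSucc = _
      rw [sphField_succ, add_sub_cancel_left]
    have hne0 : T i.castSucc ≠ 0 := (hpos i.castSucc).ne'
    have hne1 : T i.succ ≠ 0 := (hpos i.succ).ne'
    have hcs : i.castSucc ≤ i.succ := Fin.castSucc_le_succ i
    have hlt : ∀ j : Fin (k + 1), ¬ j ≤ i.castSucc → i.succ ≤ j := fun j => by
      simp [Fin.le_def]
    have eT : T i.succ - T i.castSucc = -(d * Ms) := by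
      rw [hTe, hTe, hMs, Finset.mul_sum, ← Finset.sum_sub_distrib, ← Finset.sum_neg_distrib]
      refine Finset.sum_congr rfl fun j _ => ?_
      by_cases h : j ≤ i.castSucc
      · rw [if_pos h, max_eq_left (hp.mono h), max_eq_left (hp.mono (h.trans hcs)), hd]
        ring
      · have h2 := hlt j h
        rw [if_neg h, max_eq_right (hp.mono h2), max_eq_right (hp.mono (hcs.trans h2))]
        ring
    have eH : (∑ j, lmass m j * (s (max i.succ j) - p j * s j)) -
        (∑ j, lmass m j * (s (max i.castSucc j) - p j * s j)) = Ms * Δ := by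
      rw [hMs, Finset.sum_mul, ← Finset.sum_sub_distrib]
      refine Finset.sum_congr rfl fun j _ => ?_
      by_cases h : j ≤ i.castSucc
      · rw [if_pos h, max_eq_left h, max_eq_left (h.trans hcs)]
        ring
      · rw [if_neg h, max_eq_right (hlt j h), max_eq_right (hcs.trans (hlt j h))]
        ring
    have eG : G i.succ - G i.castSucc =
        d * ((∑ j, lmass m j * (s (max i.castSucc j) - p j * s j)) - Ms * s i.castSucc) := by
      rw [hMs, Finset.sum_mul, ← Finset.sum_sub_distrib, ← Finset.sum_sub_distrib, Finset.mul_sum]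
      refine Finset.sum_congr rfl fun j _ => ?_
      by_cases h : j ≤ i.castSucc
      · rw [if_pos h, max_eq_left h, min_eq_right h, min_eq_right (h.trans hcs), hd]
        ring
      · rw [if_neg h, max_eq_right (hcs.trans (hlt j h)), min_eq_left (hlt j h),
          min_eq_left (hcs.trans (hlt j h)), hd]
        ring
    refine ⟨?_, ?_⟩
    · rw [show (∑ j, lmass m j * (s (max i.succ j) - p j * s j)) =
        (∑ j, lmass m j * (s (max i.castSucc j) - p j * s j)) + Ms * Δ by linarith, ← add_assoc, ← ih1,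
        hΔe]
      field_simp
      linear_combination (-1 : ℝ) * eT
    · have e1 : T i.succ * Δ = d * (1 / T i.castSucc) := by
        rw [hΔe]
        field_simp
      rw [ih1] at e1
      linear_combination ih2 + e1 + s i.castSucc * eT - eG + hd

/-- The map is linear. -/
lemma loopOp_sub (a b : Fin (k + 1) → ℝ) (l : Fin (k + 1)) :
    loopOp m p (fun i => a i - b i) l = loopOp m p a l - loopOp m p b l := by
  simp only [loopOp, ← Finset.sum_sub_distrib]
  exact Finset.sum_congr rfl fun j _ => by ring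

lemma gap_nonneg {x y : ℝ} (hx : 0 ≤ x ∧ x ≤ 1) (hy : 0 ≤ y ∧ y ≤ 1) : 0 ≤ min x y - x * y := by
  rcases le_total x y with h | h
  · rw [min_eq_left h]; nlinarith
  · rw [min_eq_right h]; nlinarith

lemma loopOp_le (hm : Levels m) (hp : Path p) {a : Fin (k + 1) → ℝ} {C : ℝ}
    (ha : ∀ l, 0 ≤ a l ∧ a l ≤ C) (l : Fin (k + 1)) : loopOp m p a l ≤ C * (1 - p l) := by
  calc loopOp m p a l ≤ ∑ j, lmass m j * (C * (1 - p l)) := Finset.sum_le_sum fun j _ => by
        refine mul_le_mul_of_nonneg_left ?_ (mass_pos hm j).le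
        have h1 := mul_nonneg (gap_nonneg ⟨hp.nonneg l, (hp.ltOne l).le⟩ ⟨hp.nonneg j, (hp.ltOne j).le⟩)
          (ha j).1
        have h2 : (1 - max (p l) (p j)) * a l ≤ C * (1 - p l) := by
          rw [mul_comm C]
          exact mul_le_mul (by linarith [le_max_left (p l) (p j)]) (ha l).2 (ha l).1
            (by linarith [hp.ltOne l])
        linarith
    _ = C * (1 - p l) := by rw [← Finset.sum_mul, mass_sum hm, one_mul]

/-- The quadratic form of the map is coercive. -/
lemma loopOp_coercive (hm : Levels m) (hp : Path p) {ρ : ℝ} (hρ1 : ρ ≤ 1) (hρ : ∀ l, p l ≤ ρ)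
    (d : Fin (k + 1) → ℝ) :
    (1 - ρ) ^ 2 * ∑ l, lmass m l * d l ^ 2 ≤ ∑ l, lmass m l * (d l * loopOp m p d l) := by
  set g : Fin (k + 1) → Fin (k + 1) → ℝ := fun l j => min (p l) (p j) - p l * p j
  set w : Fin (k + 1) → Fin (k + 1) → ℝ := fun l j => lmass m l * lmass m j
  have hg : ∀ l j, 0 ≤ g l j := fun l j =>
    gap_nonneg ⟨hp.nonneg l, (hp.ltOne l).le⟩ ⟨hp.nonneg j, (hp.ltOne j).le⟩
  have hw : ∀ l j, 0 ≤ w l j := fun l j => mul_nonneg (mass_pos hm l).le (mass_pos hm j).le
  have e1 : ∑ l, lmass m l * (d l * loopOp m p d l) =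
      ∑ l, ∑ j, w l j * ((1 - max (p l) (p j)) * d l ^ 2 - g l j * (d l * d j)) := by
    refine Finset.sum_congr rfl fun l _ => ?_
    rw [loopOp, Finset.mul_sum, Finset.mul_sum]
    exact Finset.sum_congr rfl fun j _ => by simp only [w, g]; ring
  have e2 : ∑ l, ∑ j, w l j * (g l j * d j ^ 2) = ∑ l, ∑ j, w l j * (g l j * d l ^ 2) := by
    rw [Finset.sum_comm]
    refine Finset.sum_congr rfl fun l _ => Finset.sum_congr rfl fun j _ => ?_
    simp only [w, g, min_comm (p l)]
    ring
  have h1 : ∑ l, ∑ j, (w l j * (((1 - max (p l) (p j)) - g l j / 2) * d l ^ 2) -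
      w l j * (g l j * d j ^ 2) / 2) ≤
      ∑ l, ∑ j, w l j * ((1 - max (p l) (p j)) * d l ^ 2 - g l j * (d l * d j)) := by
    refine Finset.sum_le_sum fun l _ => Finset.sum_le_sum fun j _ => ?_
    nlinarith [mul_nonneg (mul_nonneg (hw l j) (hg l j)) (sq_nonneg (d l - d j))]
  have h2 : ∑ l, ∑ j, w l j * ((1 - ρ) ^ 2 * d l ^ 2) ≤
      ∑ l, ∑ j, w l j * ((1 - max (p l) (p j) - g l j) * d l ^ 2) := by
    refine Finset.sum_le_sum fun l _ => Finset.sum_le_sum fun j _ => ?_
    refine mul_le_mul_of_nonneg_left (mul_le_mul_of_nonneg_right ?_ (sq_nonneg _)) (hw l j)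
    have : 1 - max (p l) (p j) - g l j = (1 - p l) * (1 - p j) := by
      simp only [g]
      linear_combination (-1 : ℝ) * max_add_min (p l) (p j)
    rw [this, sq]
    exact mul_le_mul (by linarith [hρ l]) (by linarith [hρ j]) (by linarith) (by linarith [hρ l])
  have e3 : ∑ l, ∑ j, (w l j * (((1 - max (p l) (p j)) - g l j / 2) * d l ^ 2) -
      w l j * (g l j * d j ^ 2) / 2) =
      ∑ l, ∑ j, w l j * ((1 - max (p l) (p j) - g l j) * d l ^ 2) := by
    simp only [Finset.sum_sub_distrib, ← Finset.sum_div]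
    rw [e2]
    simp only [Finset.sum_div, ← Finset.sum_sub_distrib]
    exact Finset.sum_congr rfl fun l _ => Finset.sum_congr rfl fun j _ => by ring
  have e4 : ∑ l, ∑ j, w l j * ((1 - ρ) ^ 2 * d l ^ 2) = (1 - ρ) ^ 2 * ∑ l, lmass m l * d l ^ 2 := by
    rw [Finset.mul_sum]
    refine Finset.sum_congr rfl fun l _ => ?_
    simp only [w, ← Finset.sum_mul, ← Finset.mul_sum, mass_sum hm]
    ring
  linarith

lemma sphField_mem (hm : Levels m) (hp : Path p) {ρ : ℝ} (hρ1 : ρ < 1) (hρ : ∀ l, p l ≤ ρ)
    (l : Fin (k + 1)) : 0 ≤ sphField m p l ∧ sphField m p l ≤ 1 / (1 - ρ) ^ 2 := by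
  have hT := lev_pos' hm hp
  have hT1 := lev_pos hm hp hρ
  have h0 : 0 < 1 - ρ := by linarith
  suffices h : 0 ≤ sphField m p l ∧ sphField m p l ≤ p l / (1 - ρ) ^ 2 from
    ⟨h.1, h.2.trans (div_le_div_of_nonneg_right (hp.ltOne l).le (by positivity))⟩
  induction l using Fin.induction with
  | zero =>
    rw [sphField_zero]
    exact ⟨div_nonneg (hp.nonneg 0) (sq_nonneg _), div_le_div_of_nonneg_left (hp.nonneg 0) (by positivity)
      (pow_le_pow_left₀ h0.le (hT1 0) 2)⟩
  | succ i ih =>
    rw [sphField_succ]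
    have hd : 0 ≤ p i.succ - p i.castSucc := sub_nonneg.2 (hp.mono (Fin.castSucc_le_succ i))
    have h1 : (p i.succ - p i.castSucc) / (lev m p i.castSucc * lev m p i.succ) ≤
        (p i.succ - p i.castSucc) / (1 - ρ) ^ 2 := by
      refine div_le_div_of_nonneg_left hd (by positivity) ?_
      rw [sq]
      exact mul_le_mul (hT1 _) (hT1 _) h0.le (hT _).le
    refine ⟨add_nonneg ih.1 (div_nonneg hd (mul_pos (hT _) (hT _)).le), ?_⟩
    calc _ ≤ p i.castSucc / (1 - ρ) ^ 2 + (p i.succ - p i.castSucc) / (1 - ρ) ^ 2 := add_le_add ih.2 h1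
      _ = _ := by rw [← add_div, add_sub_cancel]

section Limit

variable {A : Arr}

/-- An average over the levels of a discretisation as an average over the array. -/
lemma sum_mass_eq {K : ℕ} (D : Discr A K) (φ : Fin (D.r + 1) → ℝ) :
    ∑ l, lmass D.C.cdf l * φ l = ∫ R, φ (D.τ (R 0 1)) ∂A.law 2 := by
  have hlm : ∀ l, lmass D.C.cdf l = mNext D.C.cdf l - D.C.cdf l := fun l => by
    simp only [lmass, mNext, Nat.lt_iff_add_one_le]
  simp only [hlm]
  rw [← D.C.sum_pair, ← D.law 2 fun B : LMat D.r 2 => φ (B 0 1)]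
  simp only [lift, Fin.zero_eq_one_iff, OfNat.ofNat_ne_one, if_false]

/-- A bounded function orthogonal to the continuous ones vanishes almost everywhere. -/
lemma ae_zero_of_orth {ν : Measure ℝ} [IsProbabilityMeasure ν] {u : ℝ → ℝ} (hu : Measurable u)
    {M : ℝ} (hb : ∀ t, |u t| ≤ M)
    (hzero : ∀ ψ : ℝ → ℝ, Continuous ψ → (∃ C, ∀ t, |ψ t| ≤ C) → ∫ t, ψ t * u t ∂ν = 0) :
    ∀ᵐ t ∂ν, u t = 0 := by
  have hM : 0 ≤ M := (abs_nonneg _).trans (hb 0)
  have hi : Integrable u ν := Integrable.of_bound hu.aestronglyMeasurable M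
    (Eventually.of_forall fun t => (Real.norm_eq_abs _).le.trans (hb t))
  have i2 : Integrable (fun t => u t ^ 2) ν :=
    Integrable.of_bound (hu.pow_const 2).aestronglyMeasurable (M ^ 2) (Eventually.of_forall fun t => by
      rw [norm_pow, Real.norm_eq_abs]
      exact pow_le_pow_left₀ (abs_nonneg _) (hb t) 2)
  have hsq : ∫ t, u t ^ 2 ∂ν ≤ 0 := by
    refine le_of_forall_pos_le_add fun δ hδ => ?_
    obtain ⟨w, hw, -⟩ := hi.exists_boundedContinuous_integral_sub_le
      (show 0 < δ / (M + 1) by positivity)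
    have hwu := hzero (fun t => w t) w.continuous
      ⟨‖w‖, fun t => (Real.norm_eq_abs _).symm.le.trans (w.norm_coe_le_norm t)⟩
    have i1 : Integrable (fun t => w t * u t) ν :=
      hi.bdd_mul w.continuous.aestronglyMeasurable (Eventually.of_forall fun t => w.norm_coe_le_norm t)
    have i3 : Integrable (fun t => ‖u t - w t‖) ν := (hi.sub (w.integrable ν)).norm
    calc ∫ t, u t ^ 2 ∂ν ≤ ∫ t, (w t * u t + M * ‖u t - w t‖) ∂ν := by
          refine integral_mono i2 (i1.add (i3.const_mul M)) fun t => ?_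
          simp only [Real.norm_eq_abs]
          have hp : (u t - w t) * u t ≤ |u t - w t| * M := (le_abs_self _).trans (by
            rw [abs_mul]
            exact mul_le_mul_of_nonneg_left (hb t) (abs_nonneg _))
          nlinarith
      _ ≤ 0 + δ := by
          rw [integral_add i1 (i3.const_mul M), integral_const_mul, hwu]
          refine add_le_add le_rfl ((mul_le_mul_of_nonneg_left hw hM).trans ?_)
          rw [mul_div_assoc', div_le_iff₀ (by linarith)]
          nlinarith
  have e := (integral_eq_zero_iff_of_nonneg_ae (Eventually.of_forall fun t => sq_nonneg (u t)) i2).1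
    (le_antisymm hsq (integral_nonneg fun t => sq_nonneg (u t)))
  filter_upwards [e] with t ht
  exact pow_eq_zero_iff (n := 2) (by norm_num) |>.1 ht

lemma path_q {K : ℕ} (D : Discr A (K + 2)) : Path D.q where
  mono := D.monoq
  nonneg j := (D.rangeq j).1
  ltOne j := ((D.levelParam (by omega)).rangeq j).2

/-- The overlaps stay away from one. -/
lemma exists_rho (D : ∀ K, Discr A (K + 2)) (hD : ∀ K, Levels (D K).C.cdf)
    (a : ∀ K, Fin ((D K).r + 1) → ℝ) {C : ℝ} (hC : 0 ≤ C) (hb : ∀ K l, 0 ≤ a K l ∧ a K l ≤ C)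
    (hloop : ∀ ψ : ℝ → ℝ, Continuous ψ → (∃ Cψ, ∀ t, |ψ t| ≤ Cψ) →
      Tendsto (fun K => ∑ l, lmass (D K).C.cdf l * (ψ ((D K).q l) *
        (loopOp (D K).C.cdf (D K).q (a K) l - (D K).q l))) atTop (𝓝 0)) :
    ∃ ρ, ρ < 1 ∧ ∀ᶠ K in atTop, ∀ l, (D K).q l ≤ ρ := by
  have := A.prob 2
  set c := C / (1 + C) with hc
  have hc1 : c < 1 := by rw [hc, div_lt_one (by linarith)]; linarith
  set ψ : ℝ → ℝ := fun t => max 0 (min 1 (t - c)) with hψ
  have hψc : Continuous ψ := continuous_const.max (continuous_const.min (continuous_id.sub continuous_const))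
  have hψ1 : ∀ t, |ψ t| ≤ 1 := fun t => by
    rw [hψ, abs_of_nonneg (le_max_left _ _)]
    exact max_le zero_le_one (min_le_left _ _)
  have hkey : ∀ K, (1 + C) * ∑ l, lmass (D K).C.cdf l * ψ ((D K).q l) ^ 2 ≤
      -∑ l, lmass (D K).C.cdf l * (ψ ((D K).q l) *
        (loopOp (D K).C.cdf (D K).q (a K) l - (D K).q l)) := fun K => by
    rw [Finset.mul_sum, ← Finset.sum_neg_distrib]
    refine Finset.sum_le_sum fun l _ => ?_
    set q := (D K).q l
    have h1 := loopOp_le (hD K) (path_q (D K)) (hb K) l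
    have hce : (1 + C) * c = C := mul_div_cancel₀ _ (by linarith)
    have h0 : 0 ≤ ψ q := le_max_left _ _
    have h2 : (1 + C) * ψ q * ψ q ≤ ψ q * (q - loopOp (D K).C.cdf (D K).q (a K) l) := by
      rcases le_or_gt (q - c) 0 with h | h
      · have : ψ q = 0 := max_eq_left ((min_le_right _ _).trans h)
        simp [this]
      · have h3 : ψ q ≤ q - c := max_le h.le (min_le_right _ _)
        have h4 := mul_le_mul_of_nonneg_left h3 (show (0 : ℝ) ≤ 1 + C by linarith)
        rw [mul_comm ((1 + C) * ψ q)]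
        refine mul_le_mul_of_nonneg_left ?_ h0
        nlinarith
    have := mul_le_mul_of_nonneg_left h2 (mass_pos (hD K) l).le
    nlinarith
  have hT : Tendsto (fun K => ∑ l, lmass (D K).C.cdf l * ψ ((D K).q l) ^ 2) atTop
      (𝓝 (∫ R, ψ (R 0 1) ^ 2 ∂A.law 2)) := by
    refine (tendsto_discr D (H := fun R : Mat 2 => ψ (R 0 1) ^ 2)
      ((hψc.comp ((continuous_apply 1).comp (continuous_apply 0))).pow 2) (C := 1) fun R => ?_).congr fun K => ?_
    · rw [abs_pow]
      exact pow_le_one₀ (abs_nonneg _) (hψ1 _)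
    · rw [sum_mass_eq (D K) fun l => ψ ((D K).q l) ^ 2, ← (D K).law 2 fun B => ψ (qmat (D K).q B 0 1) ^ 2]
      simp [qmat, lift]
  have hψpos : ∀ t, c < t → 0 < ψ t := fun t ht => lt_max_of_lt_right (lt_min one_pos (sub_pos.2 ht))
  clear_value ψ
  have hz : ∀ᵐ R ∂A.law 2, R 0 1 ≤ c := by
    have hle : (1 + C) * ∫ R, ψ (R 0 1) ^ 2 ∂A.law 2 ≤ -0 :=
      le_of_tendsto_of_tendsto' (hT.const_mul _) (hloop ψ hψc ⟨1, hψ1⟩).neg hkey
    have h0 : ∫ R, ψ (R 0 1) ^ 2 ∂A.law 2 = 0 := le_antisymm (by nlinarith) (integral_nonneg fun R => sq_nonneg _)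
    have hmm : Measurable fun R : Mat 2 => ψ (R 0 1) ^ 2 :=
      (hψc.measurable.comp (g := ψ) (f := fun R : Mat 2 => R 0 1) (measurable_entry 0 1)).pow_const 2
    have hint : Integrable (fun R : Mat 2 => ψ (R 0 1) ^ 2) (A.law 2) :=
      Integrable.of_bound hmm.aestronglyMeasurable 1 (Eventually.of_forall fun R => by
        rw [norm_pow, Real.norm_eq_abs]
        exact pow_le_one₀ (abs_nonneg _) (hψ1 _))
    have hnn : (0 : Mat 2 → ℝ) ≤ᵐ[A.law 2] fun R : Mat 2 => ψ (R 0 1) ^ 2 :=
      Eventually.of_forall fun R => sq_nonneg (ψ (R 0 1))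
    have e : (fun R : Mat 2 => ψ (R 0 1) ^ 2) =ᵐ[A.law 2] 0 :=
      (integral_eq_zero_iff_of_nonneg_ae hnn hint).1 h0
    filter_upwards [e] with R hR
    have : ψ (R 0 1) = 0 := pow_eq_zero_iff (n := 2) (by norm_num) |>.1 hR
    by_contra hlt
    push Not at hlt
    have h' : 0 < ψ (R 0 1) := hψpos _ hlt
    linarith
  refine ⟨(1 + c) / 2, by linarith, ?_⟩
  have hev : ∀ᶠ K : ℕ in atTop, 2 / ((K + 2 : ℕ) : ℝ) < (1 - c) / 2 :=
    (tendsto_const_nhds.div_atTop (tendsto_natCast_atTop_atTop.comp (tendsto_add_atTop_nat 2))).eventually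
      (eventually_lt_nhds (by linarith))
  filter_upwards [hev] with K hK l
  by_contra hlt
  have h1 := sum_mass_eq (D K) fun i => if i = l then (1 : ℝ) else 0
  have h2 : ∫ R, (if (D K).τ (R 0 1) = l then (1 : ℝ) else 0) ∂A.law 2 = 0 := by
    refine integral_eq_zero_of_ae ?_
    filter_upwards [hz, (D K).close] with R hR hc'
    refine if_neg fun e => hlt ?_
    rw [e] at hc'
    have := (abs_le.1 hc').2
    linarith
  simp [h2] at h1
  exact (mass_pos (hD K) l).ne' h1

end Limit

/-- Weak solutions stay away from one and converge in the mean to the exact fields. -/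
theorem tendsto_sph_path {A : Arr} (D : ∀ K, Discr A (K + 2))
    (hD : ∀ K, Levels (D K).C.cdf ∧ Monotone (D K).τ) (a : ∀ K, Fin ((D K).r + 1) → ℝ)
    (hmono : ∀ K, Monotone (a K)) {C : ℝ} (hb : ∀ K l, 0 ≤ a K l ∧ a K l ≤ C)
    (hloop : ∀ ψ : ℝ → ℝ, Continuous ψ → (∃ Cψ, ∀ t, |ψ t| ≤ Cψ) →
      Tendsto (fun K => ∑ l, lmass (D K).C.cdf l * (ψ ((D K).q l) *
        (loopOp (D K).C.cdf (D K).q (a K) l - (D K).q l))) atTop (𝓝 0)) :
    (∃ ρ, ρ < 1 ∧ ∀ᶠ K in atTop, ∀ l, (D K).q l ≤ ρ) ∧
      Tendsto (fun K => ∑ l, lmass (D K).C.cdf l * |a K l - sphField (D K).C.cdf (D K).q l|)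
        atTop (𝓝 0) := by
  have hC : 0 ≤ C := (hb 0 0).1.trans (hb 0 0).2
  obtain ⟨ρ, hρ, hev⟩ := exists_rho D (fun K => (hD K).1) a hC hb hloop
  refine ⟨⟨ρ, hρ, hev⟩, ?_⟩
  have := A.prob 2
  set e : ∀ K, Fin ((D K).r + 1) → ℝ := fun K l => loopOp (D K).C.cdf (D K).q (a K) l - (D K).q l
  have he : Tendsto (fun K => ∑ l, lmass (D K).C.cdf l * |e K l|) atTop (𝓝 0) := by
    refine tendsto_of_subseq_tendsto fun ns hns => ?_
    set g : ℕ → ℝ → ℝ := fun K t => a K ((D K).τ t) / (C + 1) with hg
    have hgm : ∀ K, Monotone (g K) := fun K s t hst =>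
      div_le_div_of_nonneg_right (hmono K ((hD K).2 hst)) (by linarith)
    have hgb : ∀ K t, g K t ∈ Set.Icc (0 : ℝ) 1 := fun K t =>
      ⟨div_nonneg (hb K _).1 (by linarith), (div_le_one (by linarith)).2 (by linarith [(hb K ((D K).τ t)).2])⟩
    obtain ⟨φ, hφ, G, hG⟩ := exists_helly (fun j => g (ns j)) (fun j => hgm _) fun j => hgb _
    refine ⟨φ, ?_⟩
    set ks : ℕ → ℕ := fun j => ns (φ j)
    have hks : Tendsto ks atTop atTop := hns.comp hφ.tendsto_atTop
    have hGb : ∀ t, G t ∈ Set.Icc (0 : ℝ) 1 := fun t =>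
      isClosed_Icc.mem_of_tendsto (hG t) (Eventually.of_forall fun j => hgb _ _)
    have hGm : Monotone G := fun s t hst => le_of_tendsto_of_tendsto' (hG s) (hG t) fun j => hgm _ hst
    have hm01 : Measurable fun R : Mat 2 => R 0 1 := measurable_entry 0 1
    set cl : ℝ → ℝ := fun t => max 0 (min 1 t) with hcl
    have hclm : ∀ t, 0 ≤ cl t ∧ cl t ≤ 1 := fun t => ⟨le_max_left _ _, max_le zero_le_one (min_le_left _ _)⟩
    have hclc : Continuous cl := continuous_const.max (continuous_const.min continuous_id)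
    set F : ℝ → ℝ → ℝ → ℝ → ℝ := fun x y u v =>
      (C + 1) * ((1 - max x y) * u - (min x y - x * y) * v) with hF
    have hFb : ∀ x y u v : ℝ, x ∈ Set.Icc (0 : ℝ) 1 → y ∈ Set.Icc (0 : ℝ) 1 → u ∈ Set.Icc (0 : ℝ) 1 →
        v ∈ Set.Icc (0 : ℝ) 1 → |F x y u v| ≤ 2 * (C + 1) := by
      intro x y u v hx hy hu hv
      simp only [hF, abs_mul, abs_of_pos (show (0 : ℝ) < C + 1 by linarith)]
      rw [mul_comm 2]
      refine mul_le_mul_of_nonneg_left ((abs_sub _ _).trans ?_) (by linarith)
      have h1 : |(1 - max x y) * u| ≤ 1 * 1 := by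
        rw [abs_mul]
        exact mul_le_mul (abs_le.2 ⟨by linarith [max_le hx.2 hy.2], by linarith [hx.1.trans (le_max_left x y)]⟩)
          (abs_le.2 ⟨by linarith [hu.1], hu.2⟩) (abs_nonneg _) zero_le_one
      have h2 : |(min x y - x * y) * v| ≤ 1 * 1 := by
        rw [abs_mul]
        refine mul_le_mul (abs_le.2 ⟨by linarith [gap_nonneg ⟨hx.1, hx.2⟩ ⟨hy.1, hy.2⟩], ?_⟩)
          (abs_le.2 ⟨by linarith [hv.1], hv.2⟩) (abs_nonneg _) zero_le_one
        linarith [(min_le_left x y).trans hx.2, mul_nonneg hx.1 hy.1]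
      linarith
    set u : ℝ → ℝ := fun t => (∫ S, F (cl t) (cl (S 0 1)) (G t) (G (S 0 1)) ∂A.law 2) - cl t with hu
    have hinner : Measurable (Function.uncurry fun (t : ℝ) (S : Mat 2) =>
        F (cl t) (cl (S 0 1)) (G t) (G (S 0 1))) := by
      have hx : Measurable fun w : ℝ × Mat 2 => cl w.1 := hclc.measurable.comp measurable_fst
      have hy : Measurable fun w : ℝ × Mat 2 => cl (w.2 0 1) :=
        hclc.measurable.comp (hm01.comp measurable_snd)
      have hu' : Measurable fun w : ℝ × Mat 2 => G w.1 := hGm.measurable.comp measurable_fst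
      have hv : Measurable fun w : ℝ × Mat 2 => G (w.2 0 1) :=
        hGm.measurable.comp (hm01.comp measurable_snd)
      exact (((measurable_const.sub (hx.max hy)).mul hu').sub
        (((hx.min hy).sub (hx.mul hy)).mul hv)).const_mul _
    have hum : Measurable u := (hinner.stronglyMeasurable.integral_prod_right').measurable.sub hclc.measurable
    have hub : ∀ t, |u t| ≤ 2 * (C + 1) + 1 := fun t => by
      refine (abs_sub _ _).trans (add_le_add ?_ (abs_le.2 ⟨by linarith [(hclm t).1], (hclm t).2⟩))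
      refine ((Real.norm_eq_abs _).symm.le).trans ((norm_integral_le_of_norm_le_const (C := 2 * (C + 1))
        (Eventually.of_forall fun S => (Real.norm_eq_abs _).le.trans
          (hFb _ _ _ _ (hclm t) (hclm _) (hGb t) (hGb _)))).trans (by simp))
    -- the error at an overlap
    set qv : ℕ → ℝ → ℝ := fun K t => (D K).q ((D K).τ t) with hqv
    have hqI : ∀ K t, qv K t ∈ Set.Icc (0 : ℝ) 1 := fun K t =>
      ⟨(path_q (D K)).nonneg _, ((path_q (D K)).ltOne _).le⟩
    have hev' : ∀ K t, e K ((D K).τ t) =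
        (∫ S, F (qv K t) (qv K (S 0 1)) (g K t) (g K (S 0 1)) ∂A.law 2) - qv K t := by
      intro K t
      simp only [e, loopOp, hqv, hF, hg]
      rw [sum_mass_eq (D K) fun j => (1 - max ((D K).q ((D K).τ t)) ((D K).q j)) * a K ((D K).τ t) -
        (min ((D K).q ((D K).τ t)) ((D K).q j) - (D K).q ((D K).τ t) * (D K).q j) * a K j]
      congr 1
      refine integral_congr_ae (Eventually.of_forall fun S => ?_)
      have : C + 1 ≠ 0 := by linarith
      field_simp
    have hclose : ∀ᵐ R ∂A.law 2, ∀ K, |qv K (R 0 1) - R 0 1| ≤ 2 / ((K + 2 : ℕ) : ℝ) :=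
      ae_all_iff.2 fun K => (D K).close
    have hqlim : ∀ᵐ R ∂A.law 2, Tendsto (fun j => qv (ks j) (R 0 1)) atTop (𝓝 (cl (R 0 1))) := by
      filter_upwards [hclose] with R hR
      have h0 : Tendsto (fun K => qv K (R 0 1)) atTop (𝓝 (R 0 1)) := by
        rw [tendsto_iff_dist_tendsto_zero]
        exact squeeze_zero (fun K => dist_nonneg) (fun K => (Real.dist_eq _ _).le.trans (hR K))
          (tendsto_const_nhds.div_atTop (tendsto_natCast_atTop_atTop.comp (tendsto_add_atTop_nat 2)))
      have hI := isClosed_Icc.mem_of_tendsto h0 (Eventually.of_forall fun K => hqI K _)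
      rw [hcl]
      simp only
      rw [min_eq_right hI.2, max_eq_right hI.1]
      exact h0.comp hks
    have hptw : ∀ᵐ R ∂A.law 2, Tendsto (fun j => e (ks j) ((D (ks j)).τ (R 0 1))) atTop (𝓝 (u (R 0 1))) := by
      filter_upwards [hqlim] with R hR
      simp only [hev', hu]
      refine Tendsto.sub (tendsto_integral_of_dominated_convergence (fun _ => 2 * (C + 1))
        (fun j => ?_) (integrable_const _) (fun j => Eventually.of_forall fun S =>
          (Real.norm_eq_abs _).le.trans (hFb _ _ _ _ (hqI _ _) (hqI _ _) (hgb _ _) (hgb _ _))) ?_) hR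
      · have hy : Measurable fun S : Mat 2 => qv (ks j) (S 0 1) :=
          (measurable_of_finite (D (ks j)).q).comp ((D (ks j)).measτ.comp hm01)
        have hv : Measurable fun S : Mat 2 => g (ks j) (S 0 1) := (hgm _).measurable.comp hm01
        exact (((measurable_const.sub (measurable_const.max hy)).mul measurable_const).sub
          (((measurable_const.min hy).sub (measurable_const.mul hy)).mul hv)).const_mul _ |>.aestronglyMeasurable
      · filter_upwards [hqlim] with S hS
        exact (((tendsto_const_nhds.sub (hR.max hS)).mul (hG (R 0 1))).sub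
          (((hR.min hS).sub (hR.mul hS)).mul (hG (S 0 1)))).const_mul _
    have heb : ∀ K t, |e K ((D K).τ t)| ≤ 2 * (C + 1) + 1 := fun K t => by
      rw [hev']
      refine (abs_sub _ _).trans (add_le_add ?_ (abs_le.2 ⟨by linarith [(hqI K t).1], (hqI K t).2⟩))
      refine ((Real.norm_eq_abs _).symm.le).trans ((norm_integral_le_of_norm_le_const (C := 2 * (C + 1))
        (Eventually.of_forall fun S => (Real.norm_eq_abs _).le.trans
          (hFb _ _ _ _ (hqI _ _) (hqI _ _) (hgb _ _) (hgb _ _)))).trans (by simp))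
    have hem : ∀ K, Measurable fun R : Mat 2 => e K ((D K).τ (R 0 1)) := fun K =>
      (measurable_of_finite (e K)).comp ((D K).measτ.comp hm01)
    have := Measure.isProbabilityMeasure_map (μ := A.law 2) hm01.aemeasurable
    have hu0 : ∀ᵐ R ∂A.law 2, u (R 0 1) = 0 := by
      refine ae_of_ae_map hm01.aemeasurable (ae_zero_of_orth (ν := (A.law 2).map fun R => R 0 1) hum hub ?_)
      rintro ψ hψ ⟨Cψ, hCψ⟩
      rw [integral_map (f := fun t => ψ t * u t) hm01.aemeasurable (hψ.measurable.mul hum).aestronglyMeasurable]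
      refine tendsto_nhds_unique ?_ ((hloop ψ hψ ⟨Cψ, hCψ⟩).comp hks)
      simp only [Function.comp_def]
      simp only [fun K => sum_mass_eq (D K) fun l => ψ ((D K).q l) *
        (loopOp (D K).C.cdf (D K).q (a K) l - (D K).q l)]
      refine tendsto_integral_of_dominated_convergence (fun _ => Cψ * (2 * (C + 1) + 1))
        (fun j => ((hψ.measurable.comp ((measurable_of_finite (D (ks j)).q).comp
          ((D (ks j)).measτ.comp hm01))).mul (hem (ks j))).aestronglyMeasurable)
        (integrable_const _) (fun j => Eventually.of_forall fun R => ?_) ?_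
      · rw [Real.norm_eq_abs, abs_mul]
        exact mul_le_mul (hCψ _) (heb _ _) (abs_nonneg _) ((abs_nonneg _).trans (hCψ 0))
      · filter_upwards [hptw, hqlim, hclose] with R hR hq hc
        have h0 : Tendsto (fun K => qv K (R 0 1)) atTop (𝓝 (R 0 1)) := by
          rw [tendsto_iff_dist_tendsto_zero]
          exact squeeze_zero (fun K => dist_nonneg) (fun K => (Real.dist_eq _ _).le.trans (hc K))
            (tendsto_const_nhds.div_atTop (tendsto_natCast_atTop_atTop.comp (tendsto_add_atTop_nat 2)))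
        exact ((hψ.tendsto _).comp (h0.comp hks)).mul hR
    simp only [fun K => sum_mass_eq (D K) fun l => |e K l|]
    have key : Tendsto (fun j => ∫ R, |e (ks j) ((D (ks j)).τ (R 0 1))| ∂A.law 2) atTop
        (𝓝 (∫ _R, (0 : ℝ) ∂A.law 2)) := by
      refine tendsto_integral_of_dominated_convergence (fun _ => 2 * (C + 1) + 1)
        (fun j => (hem (ks j)).abs.aestronglyMeasurable) (integrable_const _)
        (fun j => Eventually.of_forall fun R => by rw [Real.norm_eq_abs, abs_abs]; exact heb _ _) ?_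
      filter_upwards [hptw, hu0] with R hR h0
      simpa [h0] using hR.abs
    simpa using key
  -- the energy
  refine Metric.tendsto_atTop'.2 fun ε hε => ?_
  set B := C + 1 / (1 - ρ) ^ 2 with hB
  have h0 : 0 < 1 - ρ := by linarith
  have hB0 : 0 < B := by rw [hB]; positivity
  set δ := (ε / 2) ^ 2 * (1 - ρ) ^ 2 / B
  obtain ⟨K0, hK0⟩ := eventually_atTop.1 ((he.eventually (eventually_lt_nhds (show 0 < δ by positivity))).and hev)
  refine ⟨K0, fun K hK => ?_⟩
  obtain ⟨h1, h2⟩ := hK0 K hK.le
  set m := (D K).C.cdf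
  set q := (D K).q
  have hm := (hD K).1
  have hp := path_q (D K)
  set d : Fin ((D K).r + 1) → ℝ := fun l => a K l - sphField m q l
  have hd : ∀ l, |d l| ≤ B := fun l => by
    obtain ⟨s1, s2⟩ := sphField_mem hm hp hρ h2 l
    have : 0 ≤ 1 / (1 - ρ) ^ 2 := by positivity
    rw [abs_le]
    constructor <;> simp only [d, hB] <;> linarith [(hb K l).1, (hb K l).2]
  have hen : (1 - ρ) ^ 2 * ∑ l, lmass m l * d l ^ 2 ≤ B * ∑ l, lmass m l * |e K l| := by
    refine (loopOp_coercive hm hp hρ.le h2 d).trans ?_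
    rw [Finset.mul_sum]
    refine Finset.sum_le_sum fun l _ => ?_
    have hL : loopOp m q d l = e K l := by
      rw [show loopOp m q d l = loopOp m q (a K) l - loopOp m q (sphField m q) l from loopOp_sub _ _ l,
        loopOp_sphField hm hp]
    rw [hL, mul_left_comm B]
    refine mul_le_mul_of_nonneg_left ((le_abs_self _).trans ?_) (mass_pos hm l).le
    rw [abs_mul]
    exact mul_le_mul_of_nonneg_right (hd l) (abs_nonneg _)
  have hsq : ∑ l, lmass m l * d l ^ 2 < (ε / 2) ^ 2 := by
    by_contra hge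
    push Not at hge
    have := mul_le_mul_of_nonneg_left hge (sq_nonneg (1 - ρ))
    have e1 : B * δ = (ε / 2) ^ 2 * (1 - ρ) ^ 2 := mul_div_cancel₀ _ hB0.ne'
    nlinarith [mul_lt_mul_of_pos_left h1 hB0]
  have hl1 : ∀ l, lmass m l * |d l| ≤ lmass m l * (ε / 4 + d l ^ 2 / ε) := fun l => by
    refine mul_le_mul_of_nonneg_left ?_ (mass_pos hm l).le
    rw [div_add_div _ _ (by norm_num) hε.ne', le_div_iff₀ (by positivity)]
    nlinarith [sq_nonneg (2 * |d l| - ε), sq_abs (d l)]
  have hfin : ∑ l, lmass m l * |d l| < ε := by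
    refine (Finset.sum_le_sum fun l _ => hl1 l).trans_lt ?_
    have hs1 : ∑ i, lmass m i = 1 := mass_sum hm
    simp only [mul_add, Finset.sum_add_distrib, ← Finset.sum_mul, hs1, ← mul_div_assoc, ← Finset.sum_div]
    have : (∑ l, lmass m l * d l ^ 2) / ε < ε / 4 := by
      rw [div_lt_iff₀ hε]; nlinarith
    linarith
  rw [Real.dist_eq, sub_zero, abs_of_nonneg (Finset.sum_nonneg fun l _ => mul_nonneg (mass_pos hm l).le (abs_nonneg _))]
  exact hfin

end Vale.Agent.P157F
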