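import Vale.Agent.P157F.Sph.Defs
import Vale.Agent.P157F.Sph.Entropy
import Vale.Agent.P157F.Sph.Value.Tangent
import Vale.Agent.P157F.Pat.Use
import Vale.Agent.P157F.Pat.Stable
import Vale.Agent.P157.Low.SphValueDiscr

/-!
P157: Parisi's functional on the sphere against the formula near the fields of the path.
-/

namespace Vale.Agent.P157F

open MeasureTheory Filter Finset Vale.Agent.P157 Vale.Agent.P157.Low Vale.Agent.P166F
open SphVal (seqW seqVal below)

variable {k : ℕ}

/-- Parisi's functional on the sphere as value, free value and pairing. -/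
lemma parisiSphere_eq {f : ℝ → ℝ} (hs : Smf f) {D : ℝ} (hD : ∀ x, |deriv f x| ≤ D) (α : ℝ)
    {m q : Fin (k + 1) → ℝ} (hm : Levels m) (hq : Path q) (z : ℝ) :
    (parisiSphere f α (q 0) (levels m q) z = α * patVal f m q +
      (sphFree m (fun l => α * conj f m q l) z - α * conj f m q (Fin.last k) / 2 +
        pairing m q fun l => α * conj f m q l)) ∧
    rsbMult (levels m q) (fun j => α * rsbOverlap f (q 0) (levels m q) j) z =
      qmult m (incr fun l => α * conj f m q l) (lv k) z := by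
  have h := levelParam hm hq
  set R : ℕ → ℝ := rsbOverlap f (q 0) (levels m q) with hR
  have hRj : ∀ j : Fin (k + 1), conj f m q j = R j := fun j => conj_eq_overlap hs hD h j
  have hE : patVal f m q = rsbEnergy f (q 0) (levels m q) := by
    show potUp m (incr q) (fun y => Real.log (topW f q y)) (k + 1) 0 = _
    rw [potUp_root h.ne h.zero, incr_zero, rsbEnergy, h.rsbRest_eq, levels_eq, rsbPot_nil]
    exact integral_congr_ae (Eventually.of_forall fun z => (rsbPot_eq _ _).symm)
  set a : Fin (k + 1) → ℝ := fun l => α * conj f m q l with ha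
  have hP : pairing m q a = α / 2 * (conj f m q (Fin.last k) - rsbPair (levels m q) (q 0) R) := by
    have e : pairing m q a = α / 2 * ∑ j : Fin (k + 1),
        ((if h : (j : ℕ) + 1 ≤ k then m ⟨(j : ℕ) + 1, by omega⟩ else 1) - m j) * (q j * R j) := by
      simp only [pairing, ha, hRj, Finset.mul_sum, Finset.sum_div]
      refine Finset.sum_congr rfl fun j _ => ?_
      simp only [lmass, Nat.lt_iff_add_one_le]
      ring
    rw [e, pair_sum k m q R, h.zero, hRj]
    simp only [Fin.val_last]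
    ring
  obtain ⟨em, el⟩ := rsbMult_eq (m := m) (d := incr a) (lv k) (fun j => α * R j) (fun t ht => by
    rw [length_lv] at ht
    simp only [lv, List.getElem_ofFn, incr_succ, ha, hRj, Fin.val_succ, Fin.val_castSucc]) (incr q) z
  rw [← levels_eq] at em el
  refine ⟨?_, em⟩
  have e0 : α * R 0 = a 0 := by simp only [ha, hRj, Fin.val_zero]
  rw [parisiSphere, ← hR]
  simp only
  rw [em, el, e0, hP, hE, sphFree]
  ring

/-- The value of one pattern is at least the least value of the potential. -/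
lemma neg_le_patVal {f : ℝ → ℝ} {B : ℝ} (hf : Pot f B) {m p : Fin (k + 1) → ℝ} (hm : Levels m) :
    -B ≤ patVal f m p :=
  (abs_le.1 ((potUp_bdd (fun j => hm.zero ▸ hm.strict.monotone (Fin.zero_le j))
    (measurable_topLog hf p) (abs_topLog_le hf p) (k + 1)).2 0)).1

/-- The multipliers of the fields of a path, and the two telescoping sums at them. -/
theorem sphField_sums {ρ : ℝ} (hρ : ρ < 1) {m q : Fin (k + 1) → ℝ} (hm : Levels m) (hq : Path q)
    (hqρ : ∀ l, q l ≤ ρ) :
    ∃ w, 1 ≤ w ∧ w ≤ 1 / (1 - ρ) ∧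
      (∀ i < k, onNat (sphField m q) i ≤ onNat (sphField m q) (i + 1)) ∧
      onNat (sphField m q) k - onNat (sphField m q) 0 ≤ 1 / (1 - ρ) ^ 2 ∧
      seqVal k (cumul m) w Real.log (fun x => x⁻¹) (onNat (sphField m q)) = 2 * sphEnt m q ∧
      seqVal k (cumul m) w (fun x => -x⁻¹) (fun x => (x ^ 2)⁻¹) (onNat (sphField m q)) = 1 ∧
      below (cumul m) (fun l => (1 - onNat q l) * onNat (sphField m q) l) (k + 1) = w - 1 := by
  have hr : 0 < 1 - ρ := by linarith
  set Cs := 1 / (1 - ρ) ^ 2 with hCs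
  set M := cumul m with hMdef
  set P := onNat q with hPdef
  set S := onNat (sphField m q) with hSdef
  set T : ℕ → ℝ := fun j => tail (stepLaw m q) (P j) with hTdef
  set c : ℕ → ℝ := fun j => ∑ l ∈ Ico j (k + 1), (M (l + 1) - M l) * (1 - P l) with hcdef
  -- the masses
  have hM0 : M 0 = 0 := by rw [hMdef, cumul, dif_pos k.zero_le]; exact hm.zero
  have hMpos : ∀ j, 1 ≤ j → 0 < M j := fun j hj => by
    rw [hMdef, cumul]; split_ifs with h
    · rw [← hm.zero]; exact hm.strict (Fin.lt_def.2 (by simp; omega))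
    · exact one_pos
  have hMstep : ∀ j, j ≤ k → 0 < M (j + 1) - M j := fun j hj => by
    rw [hMdef, cumul, cumul, dif_pos hj, sub_pos]; split_ifs with h
    · exact hm.strict (Fin.lt_def.2 (Nat.lt_succ_self j))
    · exact hm.ltOne _
  have hMtop : M (k + 1) = 1 := by rw [hMdef, cumul, dif_neg (by omega)]
  have hMk : M k ≤ 1 := by linarith [hMstep k le_rfl]
  have hmo : ∀ i < k, M i ≤ M (i + 1) := fun i hi => by linarith [hMstep i hi.le]
  have hp' : ∀ i < k, 0 < M (i + 1) := fun i _ => hMpos _ (by omega)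
  -- the path
  have hPρ : ∀ j, P j ≤ ρ := fun j => hqρ _
  have hP0 : ∀ j, 0 ≤ P j := fun j => hq.nonneg _
  have hPmono : Monotone P := fun i j h => hq.mono (Fin.le_def.2 (min_le_min_right k h))
  -- the tails
  have hcstep : ∀ j, j ≤ k → c j = (M (j + 1) - M j) * (1 - P j) + c (j + 1) := fun j hj =>
    sum_eq_sum_Ico_succ_bot (show j < k + 1 by omega) _
  have hTeq : ∀ j, j ≤ k → T j = M (j + 1) * (1 - P j) + c (j + 1) := fun j hj => by
    have e : ∀ l : Fin (k + 1), lmass m l * (1 - max (P j) (q l)) =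
        (M ((l : ℕ) + 1) - M l) * (1 - max (P j) (P l)) := fun l => by
      rw [show P l = q l from onNat_eq q l, Vale.Agent.P166F.lmass_eq]
    rw [hTdef]
    simp only [tail]
    rw [integral_stepLaw hm, sum_congr rfl fun l _ => e l,
      Fin.sum_univ_eq_sum_range (fun l => (M (l + 1) - M l) * (1 - max (P j) (P l))) (k + 1),
      ← sum_range_add_sum_Ico _ (show j + 1 ≤ k + 1 by omega),
      sum_congr rfl fun l hl => by rw [max_eq_left (hPmono (Nat.lt_succ_iff.1 (mem_range.1 hl)))],
      sum_congr (s₁ := Ico (j + 1) (k + 1)) rfl fun l hl => by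
        rw [max_eq_right (hPmono (show j ≤ l by linarith [(mem_Ico.1 hl).1]))],
      ← sum_mul, sum_range_sub M, hM0, sub_zero]
  have hc1 : ∀ j, j ≤ k → (1 - ρ) * (1 - M (j + 1)) ≤ c (j + 1) := fun j hj => by
    refine le_trans (le_of_eq ?_) (sum_le_sum (f := fun l => (M (l + 1) - M l) * (1 - ρ)) fun l hl =>
      mul_le_mul_of_nonneg_left (by linarith [hPρ l]) (hMstep l (Nat.lt_succ_iff.1 (mem_Ico.1 hl).2)).le)
    rw [← sum_mul, sum_Ico_eq_sub _ (show j + 1 ≤ k + 1 by omega), sum_range_sub M, sum_range_sub M,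
      hMtop]
    ring
  have hTge : ∀ j, j ≤ k → 1 - ρ ≤ T j := fun j hj => by
    have := hc1 j hj
    have := mul_le_mul_of_nonneg_left (show 1 - ρ ≤ 1 - P j by linarith [hPρ j]) (hMpos (j + 1) (by omega)).le
    rw [hTeq j hj]
    linarith
  have hTpos : ∀ j, j ≤ k → 0 < T j := fun j hj => hr.trans_le (hTge j hj)
  have hTle : ∀ j, j ≤ k → T j ≤ 1 := fun j hj => by
    rw [hTeq j hj]
    have h1 : c (j + 1) ≤ ∑ l ∈ Ico (j + 1) (k + 1), (M (l + 1) - M l) := sum_le_sum fun l hl =>
      mul_le_of_le_one_right (hMstep l (Nat.lt_succ_iff.1 (mem_Ico.1 hl).2)).le (by linarith [hP0 l])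
    rw [sum_Ico_eq_sub _ (show j + 1 ≤ k + 1 by omega), sum_range_sub M, sum_range_sub M, hMtop] at h1
    have h2 := mul_le_of_le_one_right (hMpos (j + 1) (by omega)).le (show 1 - P j ≤ 1 by linarith [hP0 j])
    linarith
  have hTd : ∀ i, i < k → T i - T (i + 1) = M (i + 1) * (P (i + 1) - P i) := fun i hi => by
    rw [hTeq i hi.le, hTeq (i + 1) (by omega), hcstep (i + 1) (by omega)]; ring
  have hTk : T k = 1 - P k := by rw [hTeq k le_rfl, hMtop, hcdef]; simp
  set w := 1 / T 0 with hwdef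
  have hw : 1 ≤ w := by rw [hwdef, le_div_iff₀ (hTpos 0 k.zero_le), one_mul]; exact hTle 0 k.zero_le
  have hwρ : w ≤ 1 / (1 - ρ) := one_div_le_one_div_of_le hr (hTge 0 k.zero_le)
  -- the fields of the path
  have hS0 : S 0 = P 0 / T 0 ^ 2 := by
    simp only [hSdef, hTdef, hPdef, onNat, sphField]
    simp
  have hSd : ∀ i, i < k → S (i + 1) - S i = (P (i + 1) - P i) / (T i * T (i + 1)) := fun i hi => by
    have e : ∀ j, j ≤ k → S j = P 0 / T 0 ^ 2 +
        ∑ l ∈ range k, if l < j then (P (l + 1) - P l) / (T l * T (l + 1)) else 0 := fun j hj => by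
      simp only [hSdef, sphField]
      rw [← Fin.sum_univ_eq_sum_range (fun l => if l < j then (P (l + 1) - P l) / (T l * T (l + 1)) else 0) k]
      have ej : min j k = j := min_eq_left hj
      have h0 : q 0 = P 0 := (onNat_eq q 0).symm
      simp only [onNat, ej, hTdef, sphField]
      rw [h0]
      refine congrArg _ (sum_congr rfl fun l _ => ?_)
      rw [show q l.succ = P ((l : ℕ) + 1) from (onNat_eq q l.succ).symm,
        show q l.castSucc = P l from (onNat_eq q l.castSucc).symm]
    rw [e i hi.le, e (i + 1) hi]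
    have h1 : ∀ l ∈ range k, (if l < i + 1 then (P (l + 1) - P l) / (T l * T (l + 1)) else 0) =
        (if l < i then (P (l + 1) - P l) / (T l * T (l + 1)) else 0) +
          (if l = i then (P (l + 1) - P l) / (T l * T (l + 1)) else 0) := fun l _ => by
      rcases lt_trichotomy l i with h | h | h
      · simp [h, h.ne, show l < i + 1 by omega]
      · simp [h]
      · simp [h.not_gt, h.ne', show ¬l < i + 1 by omega]
    rw [sum_congr rfl h1, sum_add_distrib, sum_ite_eq', if_pos (mem_range.2 hi)]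
    ring
  have hSmono : ∀ i < k, S i ≤ S (i + 1) := fun i hi => by
    have := div_nonneg (sub_nonneg.2 (hPmono i.le_succ))
      (mul_pos (hTpos i hi.le) (hTpos (i + 1) hi)).le
    linarith [hSd i hi]
  have hSC : S k - S 0 ≤ Cs := by
    calc S k - S 0 = ∑ i ∈ range k, (S (i + 1) - S i) := (sum_range_sub S k).symm
      _ ≤ ∑ i ∈ range k, (P (i + 1) - P i) * Cs := sum_le_sum fun i hi => by
          have hi' := mem_range.1 hi
          rw [hSd i hi', hCs, mul_one_div]
          refine div_le_div_of_nonneg_left (sub_nonneg.2 (hPmono i.le_succ)) (by positivity) ?_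
          rw [sq]
          exact mul_le_mul (hTge i hi'.le) (hTge (i + 1) hi') hr.le (hTpos i hi'.le).le
      _ = (P k - P 0) * Cs := by rw [← sum_mul, sum_range_sub P]
      _ ≤ 1 * Cs := mul_le_mul_of_nonneg_right (by linarith [hPρ k, hP0 0, hq.ltOne ⟨min k k, by omega⟩,
          (show P k < 1 from hq.ltOne _)]) (by positivity)
      _ = Cs := one_mul _
  have hWS : ∀ j, j ≤ k → seqW M w S j = 1 / T j := fun j hj => by
    induction j with
    | zero => rw [SphVal.seqW_zero]
    | succ j ih =>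
      have hj' : j < k := by omega
      rw [SphVal.seqW_succ, ih hj'.le, hSd j hj', mul_div_assoc', ← hTd j hj']
      have := (hTpos j hj'.le).ne'
      have := (hTpos (j + 1) hj').ne'
      field_simp
      ring
  set Lg := seqVal k M w Real.log fun x => x⁻¹ with hLg
  set Iv := seqVal k M w (fun x => -x⁻¹) fun x => (x ^ 2)⁻¹ with hIv
  have hlogS : Lg S = 2 * sphEnt m q := by
    rw [hLg, sphEnt, mul_div_cancel₀ _ (two_ne_zero : (2 : ℝ) ≠ 0)]
    simp only [seqVal]
    rw [hWS k le_rfl, one_div, Real.log_inv, hS0, hwdef, one_div, inv_inv, hTk]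
    have e0 : T 0 * (P 0 / T 0 ^ 2) = P 0 / T 0 := by
      have := (hTpos 0 k.zero_le).ne'
      field_simp
    rw [e0, show q 0 = P 0 from (onNat_eq q 0).symm,
      show q (Fin.last k) = P k from (onNat_eq q (Fin.last k)).symm]
    have e1 : ∑ i : Fin k, Real.log (tail (stepLaw m q) (q i.castSucc) / tail (stepLaw m q) (q i.succ)) /
        m i.succ = ∑ i ∈ range k, (Real.log (seqW M (T 0)⁻¹ S (i + 1)) - Real.log (seqW M (T 0)⁻¹ S i)) /
          M (i + 1) := by
      rw [← Fin.sum_univ_eq_sum_range]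
      refine sum_congr rfl fun i _ => ?_
      have hw' : (T 0)⁻¹ = w := by rw [hwdef, one_div]
      rw [show q i.succ = P ((i : ℕ) + 1) from (onNat_eq q i.succ).symm,
        show q i.castSucc = P i from (onNat_eq q i.castSucc).symm, ← cumul_eq m i.succ, hw',
        hWS _ i.isLt, hWS _ i.isLt.le, one_div, one_div, Real.log_inv, Real.log_inv]
      change Real.log (T i / T ((i : ℕ) + 1)) / M ((i : ℕ) + 1) = _
      rw [Real.log_div (hTpos _ i.isLt.le).ne' (hTpos _ i.isLt).ne']
      ring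
    rw [e1, show tail (stepLaw m q) (P 0) = T 0 from rfl]
    ring
  have hinvS : Iv S = 1 := by
    rw [hIv]
    simp only [seqVal]
    have e1 : ∑ i ∈ range k, (-(seqW M w S (i + 1))⁻¹ - -(seqW M w S i)⁻¹) / M (i + 1) =
        ∑ i ∈ range k, (P (i + 1) - P i) := sum_congr rfl fun i hi => by
      have hi' := mem_range.1 hi
      rw [hWS _ hi'.le, hWS _ hi', one_div, one_div, inv_inv, inv_inv,
        show -T (i + 1) - -T i = T i - T (i + 1) by ring, hTd i hi',
        mul_div_cancel_left₀ _ (hp' i hi').ne']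
    rw [e1, sum_range_sub P, hWS k le_rfl, one_div, inv_inv, hS0, hwdef, hTk]
    have := (hTpos 0 k.zero_le).ne'
    field_simp
    ring
  have hCS : below M (fun l => (1 - P l) * S l) (k + 1) = w - 1 := by
    have hparts := sum_mul_step c S k
    have e1 : ∑ i ∈ range k, c (i + 1) * (S (i + 1) - S i) =
        (1 - P 0) / T 0 - (1 - P k) / T k := by
      rw [← sum_range_sub' (fun i => (1 - P i) / T i) k]
      refine sum_congr rfl fun i hi => ?_
      have hi' := mem_range.1 hi
      have h1 := hTeq i hi'.le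
      have h2 := hTd i hi'
      have := (hTpos i hi'.le).ne'
      have := (hTpos (i + 1) hi').ne'
      rw [hSd i hi']
      field_simp
      linear_combination (-(P (i + 1) - P i)) * h1 + (1 - P i) * h2
    have e2 : below M (fun l => (1 - P l) * S l) (k + 1) =
        c 0 * S 0 + ∑ i ∈ range k, c (i + 1) * (S (i + 1) - S i) := by
      have e3 : ∀ j ≤ k + 1, below M (fun l => (1 - P l) * S l) j =
          ∑ l ∈ range j, (c l - c (l + 1)) * S l := fun j hj => sum_congr rfl fun l hl => by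
        have hl' : l ≤ k := by have := mem_range.1 hl; omega
        rw [hcstep l hl']; ring
      rw [e3 _ le_rfl, sum_range_succ, show c (k + 1) = 0 by simp [hcdef]]
      have e4 : ∑ l ∈ range k, (c l - c (l + 1)) * S l +
          ∑ i ∈ range k, c (i + 1) * (S (i + 1) - S i) * -1 = c 0 * S 0 - c k * S k := by
        rw [← sum_add_distrib, ← sum_range_sub' (fun i => c i * S i) k]
        exact sum_congr rfl fun i _ => by ring
      simp only [mul_neg, mul_one, sum_neg_distrib] at e4
      linarith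
    have hc0 : c 0 = T 0 := by rw [hcstep 0 k.zero_le, hTeq 0 k.zero_le, hM0]; ring
    rw [e2, e1, hc0, hS0, hTk, div_self (show 1 - P k ≠ 0 by linarith [hPρ k]), hwdef]
    have := (hTpos 0 k.zero_le).ne'
    field_simp
    ring
  exact ⟨w, hw, hwρ, hSmono, hSC, hlogS, hinvS, hCS⟩

/-- The free value lies above its tangent at the multipliers starting from `w`. -/
theorem free_tangent {m q a : Fin (k + 1) → ℝ} (hm : Levels m) (hq : Path q) (hmono : Monotone a)
    (ha0 : ∀ l, 0 ≤ a l) {w z : ℝ} (hw : 1 ≤ w) (hz : 1 ≤ z) (hpos : 0 < qmult m (incr a) (lv k) z) :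
    seqW (cumul m) w (onNat a) k - 1 - onNat a k +
          below (cumul m) (fun l => onNat q l * onNat a l) (k + 1) +
        seqVal k (cumul m) w Real.log (fun x => x⁻¹) (onNat a) +
        (z - seqW (cumul m) w (onNat a) k) *
          (1 - seqVal k (cumul m) w (fun x => -x⁻¹) (fun x => (x ^ 2)⁻¹) (onNat a)) ≤
      2 * (sphFree m a z - a (Fin.last k) / 2 + pairing m q a) ∧
    z - 1 - Real.log z - a (Fin.last k) ≤
      2 * (sphFree m a z - a (Fin.last k) / 2 + pairing m q a) := by
  set M := cumul m with hMdef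
  set P := onNat q with hPdef
  set A := onNat a with hAdef
  -- the masses
  have hM0 : M 0 = 0 := by rw [hMdef, cumul, dif_pos k.zero_le]; exact hm.zero
  have hMpos : ∀ j, 1 ≤ j → 0 < M j := fun j hj => by
    rw [hMdef, cumul]; split_ifs with h
    · rw [← hm.zero]; exact hm.strict (Fin.lt_def.2 (by simp; omega))
    · exact one_pos
  have hMstep : ∀ j, j ≤ k → 0 < M (j + 1) - M j := fun j hj => by
    rw [hMdef, cumul, cumul, dif_pos hj, sub_pos]; split_ifs with h
    · exact hm.strict (Fin.lt_def.2 (Nat.lt_succ_self j))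
    · exact hm.ltOne _
  have hMtop : M (k + 1) = 1 := by rw [hMdef, cumul, dif_neg (by omega)]
  have hMk : M k ≤ 1 := by linarith [hMstep k le_rfl]
  have hmo : ∀ i < k, M i ≤ M (i + 1) := fun i hi => by linarith [hMstep i hi.le]
  have hp' : ∀ i < k, 0 < M (i + 1) := fun i _ => hMpos _ (by omega)
  -- the paths
  have hP0 : ∀ j, 0 ≤ P j := fun j => hq.nonneg _
  have hA0 : ∀ j, 0 ≤ A j := fun j => ha0 _
  have hAmono : ∀ i < k, A i ≤ A (i + 1) := fun i _ =>
    hmono (Fin.le_def.2 (min_le_min_right k i.le_succ))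
  -- mass-weighted sums
  have hsum : ∀ (F : ℕ → ℝ) (g : Fin (k + 1) → ℝ), (∀ l : Fin (k + 1), F l = g l) →
      below M F (k + 1) = ∑ l, lmass m l * g l := fun F g hg => by
    simp only [below, Vale.Agent.P166F.lmass_eq, ← hg]
    exact (Fin.sum_univ_eq_sum_range (fun l => (M (l + 1) - M l) * F l) (k + 1)).symm
  -- the multipliers at `z`
  set W := seqW M w A with hWdef
  have hW1 : ∀ i ≤ k, 1 ≤ W i := fun i hi => hw.trans (SphVal.le_seqW hp' hAmono w hi)
  set u := z - W k with hudef
  have hWz : ∀ j, j ≤ k → wseq M (fun i => A (i + 1) - A i) k z j = W j + u := fun j hj => by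
    have e := sum_range_add_sum_Ico (fun i => M (i + 1) * (A (i + 1) - A i)) hj
    simp only [wseq, hudef, hWdef, seqW]
    linarith
  have hql := qmult_qlogs_eq m (incr a) z M (fun i => A (i + 1) - A i) (fun l => cumul_eq m l) (fun i => by
    rw [incr_succ, show A ((i : ℕ) + 1) = a i.succ from onNat_eq a i.succ,
      show A (i : ℕ) = a i.castSucc from onNat_eq a i.castSucc]) 0 k.zero_le
  rw [List.drop_zero, hWz 0 k.zero_le, show W 0 = w from SphVal.seqW_zero M w A] at hql
  have hwu : 0 < w + u := by rw [← hql.1]; exact hpos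
  have hWu : ∀ i ≤ k, 0 < W i + u := fun i hi => by
    linarith [SphVal.le_seqW hp' hAmono w hi]
  set Q := ∑ i ∈ range k, (Real.log (W (i + 1) + u) - Real.log (W i + u)) / M (i + 1) with hQ
  have elogs : 2 * qlogs m (incr a) (lv k) z = Q := by
    rw [hql.2, ← range_eq_Ico, mul_sum]
    refine sum_congr rfl fun i hi => ?_
    have hi' := mem_range.1 hi
    rw [hWz i hi'.le, hWz (i + 1) hi', Real.log_div (hWu _ hi').ne' (hWu _ hi'.le).ne']
    ring
  have efree : 2 * sphFree m a z = z - 1 - Real.log z + Q + A 0 / (w + u) := by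
    rw [sphFree, hql.1, show a 0 = A 0 from (onNat_eq a 0).symm, ← elogs,
      div_mul_eq_div_div_swap (A 0) 2 (w + u)]
    ring
  set G := sphFree m a z - a (Fin.last k) / 2 + pairing m q a with hG
  have hAk : a (Fin.last k) = A k := (onNat_eq a (Fin.last k)).symm
  have hpair : 2 * pairing m q a = below M (fun l => P l * A l) (k + 1) := by
    rw [hsum (fun l => P l * A l) (fun l => q l * a l) fun l => by simp only [hPdef, hAdef, onNat_eq],
      pairing, mul_div_cancel₀ _ (two_ne_zero : (2 : ℝ) ≠ 0)]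
    exact sum_congr rfl fun l _ => by ring
  have hpair0 : 0 ≤ below M (fun l => P l * A l) (k + 1) := sum_nonneg fun l hl =>
    mul_nonneg (hMstep l (Nat.lt_succ_iff.1 (mem_range.1 hl))).le (mul_nonneg (hP0 l) (hA0 l))
  -- the range of the multiplier
  have hQ0 : 0 ≤ Q := sum_nonneg fun i hi => by
    have hi' := mem_range.1 hi
    refine div_nonneg (sub_nonneg.2 (Real.log_le_log (hWu i hi'.le) ?_)) (hp' i hi').le
    have := mul_nonneg (hp' i hi').le (sub_nonneg.2 (hAmono i hi'))
    linarith [SphVal.seqW_succ M w A i]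
  -- the tangent in the multiplier
  have htQ : ∑ i ∈ range k, (Real.log (W (i + 1)) - Real.log (W i)) / M (i + 1) -
      u * ∑ i ∈ range k, (-(W (i + 1))⁻¹ - -(W i)⁻¹) / M (i + 1) ≤ Q := by
    rw [mul_sum, ← sum_sub_distrib]
    refine sum_le_sum fun i hi => ?_
    have hi' := mem_range.1 hi
    rw [mul_div_assoc', ← sub_div]
    refine div_le_div_of_nonneg_right ?_ (hp' i hi').le
    have e := SphVal.seqW_succ M w A i
    have h := SphVal.log_ratio_shift (W := W i) (c := M (i + 1) * (A (i + 1) - A i))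
      (by linarith [hW1 i hi'.le]) (mul_nonneg (hp' i hi').le (sub_nonneg.2 (hAmono i hi'))) (hWu i hi'.le)
    simp only [hWdef] at h ⊢
    rw [← e, one_div, one_div] at h
    linarith
  have htz : -Real.log (W k) - u * (W k)⁻¹ ≤ -Real.log z := by
    have hWk0 : 0 < W k := by linarith [hW1 k le_rfl]
    have h := Real.log_le_sub_one_of_pos (div_pos (by linarith : (0 : ℝ) < z) hWk0)
    rw [Real.log_div (by linarith) hWk0.ne'] at h
    have : z / W k - 1 = u * (W k)⁻¹ := by rw [hudef]; field_simp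
    linarith
  have htA : w⁻¹ * A 0 - u * ((w ^ 2)⁻¹ * A 0) ≤ A 0 / (w + u) := by
    have hw0 : 0 < w := by linarith
    have e : A 0 / (w + u) - (w⁻¹ * A 0 - u * ((w ^ 2)⁻¹ * A 0)) = A 0 * u ^ 2 / (w ^ 2 * (w + u)) := by
      field_simp
      ring
    have : 0 ≤ A 0 * u ^ 2 / (w ^ 2 * (w + u)) := div_nonneg (mul_nonneg (hA0 0) (sq_nonneg u)) (by positivity)
    linarith
  have h2 : 0 ≤ A 0 / (w + u) := div_nonneg (hA0 0) hwu.le
  constructor
  · simp only [seqVal]
    linarith
  · linarith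

/-- The free value less the pairing terms at fields near those of the path: at multipliers where it
is not above `c` it is near the spherical entropy. -/
theorem free_ge_sphEnt {ρ Ca K : ℝ} (hρ : ρ < 1) (hCa : 0 ≤ Ca) (hK : 0 ≤ K) :
    ∃ L, 0 < L ∧ ∀ (k : ℕ) (m q a : Fin (k + 1) → ℝ), Levels m → Path q → (∀ l, q l ≤ ρ) →
      Monotone a → (∀ l, 0 ≤ a l ∧ a l ≤ Ca) → ∀ z, 1 ≤ z → 0 < qmult m (incr a) (lv k) z →
      sphFree m a z - a (Fin.last k) / 2 + pairing m q a ≤ K →
      sphEnt m q - L * (∑ l, lmass m l * |a l - sphField m q l|) ≤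
        sphFree m a z - a (Fin.last k) / 2 + pairing m q a := by
  have hr : 0 < 1 - ρ := by linarith
  set Cs := 1 / (1 - ρ) ^ 2 with hCs
  set C := max Ca Cs with hC
  have hC0 : 0 ≤ C := hCa.trans (le_max_left _ _)
  set U := 2 * (2 * K + Ca + 1) + (1 / (1 - ρ) + C) with hU
  have hU0 : 0 ≤ U := by positivity
  refine ⟨2 + C + U * (1 + 2 * C), by positivity, fun k m q a hm hq hqρ hmono hab z hz hpos hK' => ?_⟩
  set M := cumul m with hMdef
  set P := onNat q with hPdef
  set A := onNat a with hAdef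
  set S := onNat (sphField m q) with hSdef
  set δ := ∑ l, lmass m l * |a l - sphField m q l| with hδdef
  have hδ0 : 0 ≤ δ := sum_nonneg fun l _ => mul_nonneg (lmass_nonneg hm l) (abs_nonneg _)
  -- the masses
  have hM0 : M 0 = 0 := by rw [hMdef, cumul, dif_pos k.zero_le]; exact hm.zero
  have hMpos : ∀ j, 1 ≤ j → 0 < M j := fun j hj => by
    rw [hMdef, cumul]; split_ifs with h
    · rw [← hm.zero]; exact hm.strict (Fin.lt_def.2 (by simp; omega))
    · exact one_pos
  have hMstep : ∀ j, j ≤ k → 0 < M (j + 1) - M j := fun j hj => by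
    rw [hMdef, cumul, cumul, dif_pos hj, sub_pos]; split_ifs with h
    · exact hm.strict (Fin.lt_def.2 (Nat.lt_succ_self j))
    · exact hm.ltOne _
  have hMtop : M (k + 1) = 1 := by rw [hMdef, cumul, dif_neg (by omega)]
  have hMk : M k ≤ 1 := by linarith [hMstep k le_rfl]
  have hmo : ∀ i < k, M i ≤ M (i + 1) := fun i hi => by linarith [hMstep i hi.le]
  have hp' : ∀ i < k, 0 < M (i + 1) := fun i _ => hMpos _ (by omega)
  -- the paths
  have hPρ : ∀ j, P j ≤ ρ := fun j => hqρ _
  have hP0 : ∀ j, 0 ≤ P j := fun j => hq.nonneg _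
  have hAmono : ∀ i < k, A i ≤ A (i + 1) := fun i _ =>
    hmono (Fin.le_def.2 (min_le_min_right k i.le_succ))
  have hA0 : ∀ j, 0 ≤ A j := fun j => (hab _).1
  have hAC : A k - A 0 ≤ C := ((sub_le_self _ (hA0 0)).trans (hab _).2).trans (le_max_left _ _)
  obtain ⟨w, hw, hwρ, hSmono, hSC₀, hlogS, hinvS, hCS⟩ := sphField_sums hρ hm hq hqρ
  have hSC : S k - S 0 ≤ C := hSC₀.trans (le_max_right Ca Cs)
  -- mass-weighted sums
  have hsum : ∀ (F : ℕ → ℝ) (g : Fin (k + 1) → ℝ), (∀ l : Fin (k + 1), F l = g l) →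
      below M F (k + 1) = ∑ l, lmass m l * g l := fun F g hg => by
    simp only [below, Vale.Agent.P166F.lmass_eq, ← hg]
    exact (Fin.sum_univ_eq_sum_range (fun l => (M (l + 1) - M l) * F l) (k + 1)).symm
  have habs : ∀ F : ℕ → ℝ, (∀ l, l ≤ k → |F l| ≤ |A l - S l|) → ∀ n ≤ k + 1, |below M F n| ≤ δ := by
    intro F hF n hn
    have e : δ = below M (fun l => |A l - S l|) (k + 1) :=
      (hsum (fun l => |A l - S l|) (fun l => |a l - sphField m q l|) fun l => by
        simp only [hAdef, hSdef, onNat_eq]).symm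
    rw [e]
    refine (abs_sum_le_sum_abs _ _).trans ((sum_le_sum fun l hl => ?_).trans
      (sum_le_sum_of_subset_of_nonneg (range_mono hn) fun l hl _ => ?_))
    · have hl' : l ≤ k := by have := mem_range.1 hl; omega
      rw [abs_mul, abs_of_nonneg (hMstep l hl').le]
      exact mul_le_mul_of_nonneg_left (hF l hl') (hMstep l hl').le
    · exact mul_nonneg (hMstep l (Nat.lt_succ_iff.1 (mem_range.1 hl))).le (abs_nonneg _)
  -- the two telescoping sums
  set Lg := seqVal k M w Real.log fun x => x⁻¹ with hLg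
  set Iv := seqVal k M w (fun x => -x⁻¹) fun x => (x ^ 2)⁻¹ with hIv
  have hAS : ∀ n ≤ k + 1, |below M (fun l => A l - S l) n| ≤ δ := habs _ fun _ _ => le_rfl
  have hSA : ∀ n ≤ k + 1, |below M (fun l => S l - A l) n| ≤ δ :=
    habs _ fun l _ => (abs_sub_comm _ _).le
  have hlogT : ∀ x y : ℝ, 1 ≤ x → 1 ≤ y → Real.log y ≤ Real.log x + x⁻¹ * (y - x) := fun x y hx hy => by
    have h := Real.log_le_sub_one_of_pos (div_pos (by linarith : (0 : ℝ) < y) (by linarith : (0 : ℝ) < x))
    rw [Real.log_div (by linarith) (by linarith)] at h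
    have : y / x - 1 = x⁻¹ * (y - x) := by field_simp
    linarith
  have hinv1 : ∀ x : ℝ, 1 ≤ x → |x⁻¹| ≤ 1 := fun x hx => by
    rw [abs_of_pos (by positivity)]; exact inv_le_one_of_one_le₀ hx
  have hinvL : ∀ x y : ℝ, 1 ≤ x → x ≤ y → |x⁻¹ - y⁻¹| ≤ 1 * (y - x) := fun x y hx hxy => by
    have hy : 1 ≤ y := hx.trans hxy
    rw [inv_sub_inv (by linarith) (by linarith), one_mul,
      abs_of_nonneg (div_nonneg (by linarith) (by positivity))]
    exact div_le_self (by linarith) (one_le_mul_of_one_le_of_one_le hx hy)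
  have hL1 : Lg S - Lg A ≤ (1 + 1 * C) * δ :=
    SphVal.seqVal_le hM0 hMtop hMk hmo hp' hw hlogT hinvL hinv1 zero_le_one hAmono hSmono hAC hSA
  have hsqT : ∀ x y : ℝ, 1 ≤ x → 1 ≤ y → -y⁻¹ ≤ -x⁻¹ + (x ^ 2)⁻¹ * (y - x) := fun x y hx hy => by
    have hx0 : 0 < x := by linarith
    have hy0 : 0 < y := by linarith
    have e : -x⁻¹ + (x ^ 2)⁻¹ * (y - x) - -y⁻¹ = (y - x) ^ 2 / (x ^ 2 * y) := by field_simp; ring
    have : 0 ≤ (y - x) ^ 2 / (x ^ 2 * y) := by positivity
    linarith
  have hsq1 : ∀ x : ℝ, 1 ≤ x → |(x ^ 2)⁻¹| ≤ 1 := fun x hx => hinv1 _ (one_le_pow₀ hx)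
  have hsqL : ∀ x y : ℝ, 1 ≤ x → x ≤ y → |(x ^ 2)⁻¹ - (y ^ 2)⁻¹| ≤ 2 * (y - x) := fun x y hx hxy => by
    have hy : 1 ≤ y := hx.trans hxy
    rw [← inv_pow, ← inv_pow, sq_sub_sq, abs_mul]
    refine mul_le_mul ((abs_add_le _ _).trans ?_) ((hinvL x y hx hxy).trans_eq (one_mul _))
      (abs_nonneg _) zero_le_two
    linarith [hinv1 x hx, hinv1 y hy]
  have hI : |1 - Iv A| ≤ (1 + 2 * C) * δ := by
    have h1 : Iv A - Iv S ≤ (1 + 2 * C) * δ :=
      SphVal.seqVal_le hM0 hMtop hMk hmo hp' hw hsqT hsqL hsq1 zero_le_two hSmono hAmono hSC hAS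
    have h2 : Iv S - Iv A ≤ (1 + 2 * C) * δ :=
      SphVal.seqVal_le hM0 hMtop hMk hmo hp' hw hsqT hsqL hsq1 zero_le_two hAmono hSmono hAC hSA
    rw [hinvS] at h1 h2
    rw [abs_le]
    constructor <;> linarith
  -- the tangent in the multiplier
  obtain ⟨htan, hbase⟩ := free_tangent (q := q) hm hq hmono (fun l => (hab l).1) hw hz hpos
  set W := seqW M w A with hWdef
  set u := z - W k with hudef
  have hW1 : ∀ i ≤ k, 1 ≤ W i := fun i hi => hw.trans (SphVal.le_seqW hp' hAmono w hi)
  have hz2 : z ≤ 2 * (2 * K + Ca + 1) := by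
    have h1 : Real.log z ≤ z / 2 := by
      have h := Real.log_le_sub_one_of_pos (Real.sqrt_pos.2 (by linarith : (0 : ℝ) < z))
      rw [Real.log_sqrt (by linarith)] at h
      nlinarith [Real.sq_sqrt (by linarith : (0 : ℝ) ≤ z), sq_nonneg (Real.sqrt z - 2)]
    linarith [(hab (Fin.last k)).2]
  have hu : |u| ≤ U := by
    have hWk : W k ≤ 1 / (1 - ρ) + C := by
      refine add_le_add hwρ ((sum_le_sum fun i hi => ?_).trans ((sum_range_sub A k).le.trans hAC))
      have hi' := mem_range.1 hi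
      exact mul_le_of_le_one_left (sub_nonneg.2 (hAmono i hi')) (by
        rw [hMdef, cumul, dif_pos (show i + 1 ≤ k by omega)]; exact (hm.ltOne _).le)
    have : 0 ≤ 1 / (1 - ρ) := by positivity
    rw [abs_le]
    constructor <;> linarith [hW1 k le_rfl]
  have hd : |below M (fun l => (1 - P l) * (S l - A l)) (k + 1)| ≤ δ := habs _ (fun l _ => by
    rw [abs_mul, abs_sub_comm (S l)]
    exact mul_le_of_le_one_left (abs_nonneg _)
      (by rw [abs_le]; constructor <;> linarith [hP0 l, hPρ l])) _ le_rfl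
  have hline : -δ ≤ W k - 1 - A k + below M (fun l => P l * A l) (k + 1) := by
    have eW := SphVal.seqW_eq hM0 w A k
    rw [hMtop, one_mul] at eW
    simp only [below, sub_mul, mul_sub, one_mul, sum_sub_distrib] at hCS hd eW ⊢
    simp only [hWdef] at eW ⊢
    linarith [(abs_le.1 hd).1]
  have hIu : -(U * ((1 + 2 * C) * δ)) ≤ u * (1 - Iv A) := by
    refine neg_le_of_abs_le ((abs_mul _ _).trans_le ?_)
    exact mul_le_mul hu hI (abs_nonneg _) hU0
  have : 0 ≤ (2 + C + U * (1 + 2 * C)) * δ := by positivity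
  linarith

/-- Near the fields of the path Parisi's functional is above the formula at every multiplier. -/
theorem exists_formula_le_parisiSphere {f : ℝ → ℝ} {B : ℝ} (hs : Smf f) (hf : Pot f B) {α : ℝ}
    (hα : 0 < α) {ρ : ℝ} (hρ : ρ < 1) {c : ℝ} (hc : ∀ v ∈ sphValues f α, c ≤ v) {ε : ℝ} (hε : 0 < ε) :
    ∃ δ, 0 < δ ∧ ∀ (k : ℕ) (m q : Fin (k + 1) → ℝ), Levels m → Path q → (∀ l, q l ≤ ρ) →
      ∑ l, lmass m l * |α * conj f m q l - sphField m q l| ≤ δ →
      ∀ z, 1 ≤ z → 0 < rsbMult (levels m q) (fun j => α * rsbOverlap f (q 0) (levels m q) j) z →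
        c - ε ≤ parisiSphere f α (q 0) (levels m q) z := by
  obtain ⟨D, -, hD⟩ := hs.exists_bound
  have hD1 : ∀ x, |deriv f x| ≤ D := fun x => (hD x).1
  have hB := hf.nonneg
  obtain ⟨L, hL, hfree⟩ := free_ge_sphEnt hρ (Ca := α * D ^ 2) (K := |c| + α * B) (by positivity)
    (by positivity)
  refine ⟨ε / L, by positivity, fun k m q hm hq hqρ hδ z hz hpos => ?_⟩
  obtain ⟨hmono, h0, hlast, hdiag⟩ := conj_props hs (levelParam hm hq) hD1
  obtain ⟨hG, hmult⟩ := parisiSphere_eq hs hD1 α hm hq z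
  rw [hmult] at hpos
  rw [hG]
  set a : Fin (k + 1) → ℝ := fun l => α * conj f m q l
  by_contra hlt
  push Not at hlt
  have hpat := mul_le_mul_of_nonneg_left (neg_le_patVal (p := q) hf hm) hα.le
  have h := hfree k m q a hm hq hqρ (fun i j hij => mul_le_mul_of_nonneg_left (hmono hij) hα.le)
    (fun l => ⟨mul_nonneg hα.le (h0.trans (hmono (Fin.zero_le l))),
      mul_le_mul_of_nonneg_left ((hmono (Fin.le_last l)).trans (hlast.trans hdiag)) hα.le⟩) z hz hpos
    (by linarith [le_abs_self c])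
  have hv := hc _ ⟨k, m, q, hm, hq, rfl⟩
  have hLδ : L * (∑ l, lmass m l * |a l - sphField m q l|) ≤ ε := by
    refine (mul_le_mul_of_nonneg_left hδ hL.le).trans (le_of_eq ?_)
    field_simp
  linarith

end Vale.Agent.P157F
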