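import Vale.Agent.P157F.Low.Value
import Vale.Agent.P157F.Low.Monotone
import Vale.Agent.P157F.Sph.Loop
import Vale.Agent.P157F.Sph.Solve
import Vale.Agent.P157F.Sph.Value
import Vale.Agent.P157.Low.SphCavity

/-!
P157: the lower bound on the sphere.
-/

namespace Vale.Agent.P157F

open MeasureTheory ProbabilityTheory Filter Vale.Agent.P157 Vale.Agent.P157.Low Vale.Agent.P166F
open scoped Topology RealInnerProductSpace

variable {f : ℝ → ℝ} {B : ℝ} {A : Arr}

/-- A fast sequence of sizes outgrows the perturbation. -/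
lemma tendsto_grow {φ Ns : ℕ → ℕ} (hφ : StrictMono φ) (hNs : ∀ j, (j + 1) ^ 25 ≤ Ns j) :
    Tendsto (fun j => ((φ j : ℝ) + 1) ^ 4 * strength (Ns (φ j)) ^ 2 / ((Ns (φ j) : ℝ) + 1))
      atTop (𝓝 0) := by
  refine squeeze_zero (fun j => by positivity) (fun j => ?_)
    ((tendsto_one_div_add_atTop_nhds_zero_nat (𝕜 := ℝ)).comp hφ.tendsto_atTop)
  set P : ℝ := (φ j : ℝ) + 1 with hP
  set n : ℝ := (Ns (φ j) : ℝ) + 1 with hn
  have hP0 : 0 < P := by positivity
  have hn0 : 0 < n := by positivity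
  have hPn : P ^ 25 ≤ n := by
    have h : (((φ j + 1) ^ 25 : ℕ) : ℝ) ≤ (Ns (φ j) : ℝ) := Nat.cast_le.2 (hNs (φ j))
    push_cast at h
    linarith
  have h3 : P ^ 5 ≤ n ^ (1 / 5 : ℝ) := by
    have h := Real.rpow_le_rpow (by positivity) hPn (show (0 : ℝ) ≤ 1 / 5 by norm_num)
    refine le_trans (le_of_eq ?_) h
    rw [← Real.rpow_natCast P 25, ← Real.rpow_mul hP0.le]
    norm_num
  have hs2 : strength (Ns (φ j)) ^ 2 = n / n ^ (1 / 5 : ℝ) := by
    rw [strength, ← hn, ← Real.rpow_natCast, ← Real.rpow_mul hn0.le, eq_div_iff (by positivity),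
      ← Real.rpow_add hn0]
    norm_num
  show P ^ 4 * strength (Ns (φ j)) ^ 2 / n ≤ 1 / P
  rw [hs2, mul_div_assoc', div_div, mul_comm (n ^ (1 / 5 : ℝ)), ← div_div,
    mul_div_cancel_right₀ _ hn0.ne', div_le_div_iff₀ (by positivity) hP0, one_mul]
  calc P ^ 4 * P = P ^ 5 := by ring
    _ ≤ _ := h3

/-- A discretisation at each scale with increasing weights and monotone rounding. -/
lemma exists_discrs' (A : Arr) :
    ∃ D : ∀ K, Discr A (K + 2), ∀ K, Levels (D K).C.cdf ∧ Monotone (D K).τ := by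
  choose D hD using fun K : ℕ => Vale.Agent.P166F.Low.exists_discr_mono A (K := K + 2) (by omega)
  exact ⟨D, hD⟩

lemma path_discr' {K : ℕ} (D : Discr A (K + 2)) : Path D.q where
  mono := D.monoq
  nonneg j := (D.rangeq j).1
  ltOne j := ((D.levelParam (by omega)).rangeq j).2

/-- Coefficients with small defect have gain at least `c - η`. -/
lemma sphCavDiff_ge_formula (hf : Pot f B) (hs : Smf f) {α : ℝ} (hα : 0 < α) {c : ℝ}
    (hc : ∀ v ∈ sphValues f α, c ≤ v) {η : ℝ} (hη : 0 < η) :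
    ∃ (P : ℕ) (T δ : ℝ), 1 ≤ T ∧ 0 < δ ∧ ∀ᶠ N : ℕ in atTop, ∀ x ∈ box P,
      ∑ p, sphErr hf α N x p ≤ δ → c - η ≤ sphCavDiff hf α N x (T + 1) := by
  obtain ⟨Dd, -, hDd⟩ := hs.exists_bound
  obtain ⟨T, L, M0, hT, hL, hval⟩ := value_ge_parisiSphere hs hf.bound hα.le (fun x => (hDd x).1)
    (show 0 < η / 18 by linarith) (c - η / 18)
  by_contra hcon
  push Not at hcon
  have hex : ∀ j : ℕ, ∃ N, (j + 1) ^ 25 ≤ N ∧ ∃ x ∈ box j, ∑ p, sphErr hf α N x p ≤ 1 / ((j : ℝ) + 1) ∧
      sphCavDiff hf α N x (T + 1) < c - η := fun j =>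
    frequently_atTop.1 (hcon j T (1 / ((j : ℝ) + 1)) hT (by positivity)) _
  choose Ns hNs xs hxs herr hbad using hex
  have hN : Tendsto Ns atTop atTop := tendsto_atTop_mono (fun j =>
    ((Nat.le_succ j).trans (Nat.le_self_pow (by norm_num) _)).trans (hNs j)) tendsto_id
  obtain ⟨φ, hφ, A, hA⟩ := exists_conv
    (fun j => sphSys hf (Ns j) (α * ((Ns j : ℝ) + 1)) 0 (xs j)) (fun p n l Φ hΦ hΦb => by
      obtain ⟨D, hD⟩ := hΦb
      refine squeeze_zero_norm' ?_
        (by simpa using (tendsto_one_div_add_atTop_nhds_zero_nat (𝕜 := ℝ)).const_mul |D|)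
      filter_upwards [eventually_gt_atTop p] with j hj
      rw [Real.norm_eq_abs]
      refine (gg_defect_le (sphBase hf (Ns j) (α * ((Ns j : ℝ) + 1)) 0) (N := Ns j + 1)
        (fun r : Sph (Ns j + 1) => (r : Sp (Ns j + 1))) measurable_subtype_coe
        (fun r => mem_sphere_zero_iff_norm.1 r.2) (fun _ _ => rfl)
        (strength_pos (Ns j)) (hxs j) ⟨p, hj⟩ l hΦ.measurable
        (fun R => (hD R).trans (le_abs_self D))).trans ?_
      refine mul_le_mul_of_nonneg_left ?_ (abs_nonneg D)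
      exact (Finset.single_le_sum (fun q _ => sphErr_nonneg hf α (Ns j) (xs j) q)
        (Finset.mem_univ (⟨p, hj⟩ : Fin j))).trans (by simpa [one_div] using herr j))
  set Ms : ℕ → ℕ := fun j => Ns (φ j) with hMs
  have hM : Tendsto Ms atTop atTop := hN.comp hφ.tendsto_atTop
  have hA2 : Conv (fun j => sphSys hf (Ms j) (α * ((Ms j : ℝ) + 2)) 0 (xs (φ j))) A :=
    sph_conv_next (Ns := Ms) (Ps := φ) (xs := fun j => xs (φ j)) hf hs hα.le hA
  have hgain := sph_tendsto_gain (Ns := Ms) (Ps := φ) (xs := fun j => xs (φ j)) hf hs hα.le hA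
  -- the grid of drifts
  set M := |M0| with hM0e
  set s := η / (4 * T ^ 2) with hse
  have hs0 : 0 < s := by positivity
  set n := ⌈2 * M / s⌉₊
  set pt : ℕ → ℝ := fun i => -M + (i : ℝ) * s with hpt
  obtain ⟨C, hC0, hC⟩ := sph_cavity_step hf hs hα hT hL M
  set t := 9 * C / η + 1 with ht
  have ht0 : 0 < t := by positivity
  have hCt : C / t ≤ η / 9 := by
    rw [div_le_iff₀ ht0, ht, mul_add, show η / 9 * (9 * C / η) = C by field_simp]
    linarith
  obtain ⟨D, hD⟩ := exists_discrs' A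
  have hgrow := tendsto_grow hφ (fun j => hNs j)
  have hprops := fun K => conj_props hs ((D K).levelParam (by omega)) fun x => (hDd x).1
  obtain ⟨⟨ρ, hρ, hqρ⟩, hnear⟩ := tendsto_sph_path D hD (fun K l => α * (D K).rval f l)
    (fun K i j hij => mul_le_mul_of_nonneg_left ((hprops K).1 hij) hα.le) (C := α * Dd ^ 2)
    (fun K l => ⟨mul_nonneg hα.le ((hprops K).2.1.trans ((hprops K).1 (Fin.zero_le l))),
      mul_le_mul_of_nonneg_left (((hprops K).1 (Fin.le_last l)).trans ((hprops K).2.2.1.trans (hprops K).2.2.2))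
        hα.le⟩)
    (fun ψ hψ hψb => tendsto_sph_loop hf hs hα hM φ (fun j => xs (φ j)) (fun j => hxs (φ j)) hgrow hA2 D
      (fun K => (hD K).1) hψ hψb.choose_spec)
  obtain ⟨δ₁, hδ₁, hform⟩ := exists_formula_le_parisiSphere hs hf hα hρ hc (show 0 < η / 18 by linarith)
  have hlog : ∀ᶠ K in atTop, α * logArr A (Real.exp B) (expW f) ≥
      α * (D K).C.logVal (incr (D K).q) (Real.exp B) (Low.heat (expW f) (D K).rest) - η / 9 := by
    have h := ((tendsto_logVal D (weight_expW hf hs)).const_mul α).eventually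
      (eventually_lt_nhds (show α * logArr A (Real.exp B) (expW f) <
        α * logArr A (Real.exp B) (expW f) + η / 9 by linarith))
    filter_upwards [h] with K hK
    linarith
  have hspin : ∀ᶠ K in atTop, ∀ i ∈ Finset.range (n + 1), ∀ᶠ j in atTop,
      (D K).spinValG f α (sphG (pt i) T L) - η / 9 ≤
        sSpinTerm hf α (Ms j) (xs (φ j)) (sphG (pt i) T L) := by
    refine (Finset.eventually_all _).2 fun i _ => ?_
    obtain ⟨cw, hW⟩ := weight_sphG (pt i) hT hL
    exact sph_spin_lower hf hs hα hM φ (fun j => xs (φ j)) hA2 D hW (show 0 < η / 9 by linarith)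
  have hdrift := sph_drift_limit hf hs hα hM φ (fun j => xs (φ j)) hA2 D
    (show 0 < η / (9 * (C * t + 1)) by positivity)
  obtain ⟨K, hK1, hK2, hK3, hK4, hK5⟩ := (hlog.and (hspin.and (hdrift.and (hqρ.and
    (hnear.eventually (eventually_le_nhds hδ₁)))))).exists
  obtain ⟨a, haM, had, hv⟩ := hval (D K).r (D K).C.cdf (D K).q ((D K).levelParam (by omega))
    fun z hz hzv => hform (D K).r (D K).C.cdf (D K).q (hD K).1 (path_discr' (D K)) hK4 hK5 z hz hzv
  have had' : a ≤ α * ((D K).pairing f - (D K).rdiag f) := by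
    rw [(D K).pairing_eq f]
    exact had
  rw [Casc.logVal_eq _ (D K).incr_nonneg ((weight_expW hf hs).heat (D K).rest)] at hK1
  have haM' : |a| ≤ M := haM.trans (le_abs_self M0)
  set i := ⌊(a + M) / s⌋₊ with hi
  have h0 : 0 ≤ (a + M) / s := div_nonneg (by linarith [(abs_le.1 haM').1]) hs0.le
  have hi1 : (i : ℝ) * s ≤ a + M := by
    have := Nat.floor_le h0
    rwa [le_div_iff₀ hs0] at this
  have hi2 : a + M ≤ (i : ℝ) * s + s := by
    have := (Nat.lt_floor_add_one ((a + M) / s)).le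
    rw [div_le_iff₀ hs0, ← hi] at this
    linarith
  have hin : i ∈ Finset.range (n + 1) := by
    refine Finset.mem_range.2 (Nat.lt_succ_of_le ((Nat.floor_le_ceil _).trans (Nat.ceil_le_ceil ?_)))
    exact div_le_div_of_nonneg_right (by linarith [(abs_le.1 haM').2]) hs0.le
  have hba : pt i ≤ a := by simp only [hpt]; linarith
  have hbM : |pt i| ≤ M := by
    rw [abs_le]
    simp only [hpt]
    constructor
    · nlinarith [Nat.cast_nonneg (α := ℝ) i]
    · linarith [(abs_le.1 haM').2]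
  have hround : T ^ 2 * (a - pt i) / 2 ≤ η / 8 := by
    have h : T ^ 2 * (a - pt i) ≤ T ^ 2 * s :=
      mul_le_mul_of_nonneg_left (by simp only [hpt]; linarith) (sq_nonneg T)
    have e : T ^ 2 * s = η / 4 := by rw [hse]; field_simp
    linarith
  have hsmall : ∀ᶠ j in atTop, C * t * (1 / ((Ms j : ℝ) + 2)) + C / Real.sqrt ((Ms j : ℝ) + 2) < η / 9 := by
    have h1 : Tendsto (fun j => (Ms j : ℝ) + 2) atTop atTop :=
      tendsto_atTop_add_const_right _ _ (tendsto_natCast_atTop_atTop.comp hM)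
    have h2 : Tendsto (fun j => C * t * (1 / ((Ms j : ℝ) + 2)) + C / Real.sqrt ((Ms j : ℝ) + 2)) atTop (𝓝 0) := by
      have a1 : Tendsto (fun j => C * t * (1 / ((Ms j : ℝ) + 2))) atTop (𝓝 (C * t * 0)) :=
        ((tendsto_const_nhds (x := (1 : ℝ))).div_atTop h1).const_mul (C * t)
      have a2 : Tendsto (fun j => C / Real.sqrt ((Ms j : ℝ) + 2)) atTop (𝓝 0) :=
        (tendsto_const_nhds (x := C)).div_atTop (Real.tendsto_sqrt_atTop.comp h1)
      simpa using a1.add a2
    exact h2.eventually (eventually_lt_nhds (by linarith))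
  have hgain' := hgain.eventually (eventually_gt_nhds
    (show α * logArr A (Real.exp B) (expW f) - η / 9 < α * logArr A (Real.exp B) (expW f) by linarith))
  obtain ⟨j, hj1, hj2, hj3, hj4, hj5⟩ :=
    ((hK2 i hin).and (hK3.and (hsmall.and (hgain'.and (hM.eventually hC))))).exists
  have hw := sphVal_ge_of_le (D K) hs α hα.le (f := f) hT hL hba
  have hstep := hj5 (φ j) (xs (φ j)) (pt i) (α * ((D K).pairing f - (D K).rdiag f)) t hbM
    (hba.trans had') ht0
  have hb := hbad (φ j)
  have hdt := mul_le_mul_of_nonneg_left hj2 (mul_nonneg hC0 ht0.le)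
  have e : C * t * (η / (9 * (C * t + 1))) ≤ η / 9 := by
    rw [mul_div_assoc', div_le_iff₀ (by positivity)]
    linarith
  have etop : (fun y => Real.log (topW f (D K).q y)) =
      fun y => Real.log (Low.heat (expW f) (D K).rest y) := rfl
  rw [etop] at hv
  simp only [Discr.sphVal, Discr.rdiag, Discr.rval] at hw hv hstep hdt hj1
  simp only [sphCavDiff, hMs] at hb hstep hj4 hj1 hj2 hj3 hdt
  rw [mul_add] at hstep
  linarith

/-- The pressure on the sphere is eventually above every lower bound of the formula. -/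
theorem sph_lower {f : ℝ → ℝ} (hf : Smf f) {α : ℝ} (hα : 0 < α) {c : ℝ}
    (hc : ∀ v ∈ sphValues f α, c ≤ v) {η : ℝ} (hη : 0 < η) :
    ∀ᶠ N : ℕ in atTop, c - η ≤ spherePressure f N ⌊α * N⌋₊ := by
  obtain ⟨B, hP⟩ := exists_pot hf
  refine pressure_of_sphCavity hP hα (fun η hη => ?_) hη
  obtain ⟨P, T, δ, hT, hδ, hsmall⟩ := sphCavDiff_ge_formula hP hf hα hc (show 0 < η / 2 by linarith)
  obtain ⟨C0, hC00, hC0⟩ := sphCavDiff_ge hP hf hα hT
  refine ⟨P, T + 1, by linarith, ?_⟩
  set M := (|c| + C0) / δ with hM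
  have hM0 : 0 ≤ M := by positivity
  have hlim : Tendsto (fun N => M * ∑ p, ∫ x in box P, sphErr hP α N x p) atTop (𝓝 0) := by
    simpa using (tendsto_finsetSum Finset.univ fun p _ => (tendsto_integral_sphErr hP hα P p).2).const_mul M
  filter_upwards [hsmall, hC0, hlim.eventually (eventually_lt_nhds (show (0 : ℝ) < η / 2 by linarith))]
    with N hN hN0 hN2
  have hfin : IsFiniteMeasure (volume.restrict (box P)) := ⟨by simp [volume_box]⟩
  have hi : IntegrableOn (fun x => ∑ p, sphErr hP α N x p) (box P) :=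
    integrable_finsetSum _ fun p _ => (tendsto_integral_sphErr hP hα P p).1 N
  have hmono : ∫ x in box P, (c - η / 2 - M * ∑ p, sphErr hP α N x p) ≤
      ∫ x in box P, sphCavDiff hP α N x (T + 1) := by
    refine setIntegral_mono_on ((integrable_const _).sub (hi.const_mul M))
      (integrableOn_sphCavDiff hP hα.le N P (by linarith : (1 : ℝ) ≤ T + 1))
      (MeasurableSet.univ_pi fun _ => measurableSet_Icc) fun x hx => ?_
    by_cases h : ∑ p, sphErr hP α N x p ≤ δ
    · have := hN x hx h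
      have := mul_nonneg hM0 (Finset.sum_nonneg (s := Finset.univ) fun p (_ : p ∈ Finset.univ) =>
        sphErr_nonneg hP α N x p)
      linarith
    · have h1 : |c| + C0 ≤ M * ∑ p, sphErr hP α N x p := by
        calc |c| + C0 = M * δ := by rw [hM]; field_simp
          _ ≤ _ := mul_le_mul_of_nonneg_left (not_le.1 h).le hM0
      linarith [hN0 P x, le_abs_self c]
  rw [integral_sub (integrable_const _) (hi.const_mul M), integral_const_mul,
    integral_finsetSum _ fun p _ => (tendsto_integral_sphErr hP hα P p).1 N, setIntegral_const] at hmono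
  simp only [measureReal_def, volume_box, ENNReal.toReal_one, one_smul] at hmono
  linarith

end Vale.Agent.P157F
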