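import Vale.Agent.P157F.Sph.Upper
import Vale.Agent.P157F.Sph.Lower
import Vale.Agent.P157F.Pat.Stable
import Vale.Agent.P157.Low.SphBorel

/-!
P157: the limit on the sphere for every bounded Borel potential.
-/

namespace Vale.Agent.P157F

open MeasureTheory ProbabilityTheory Filter Vale.Agent.P157 Vale.Agent.P157.Low Vale.Agent.P166F
open scoped Topology

variable {f g : ℝ → ℝ} {B α : ℝ}

lemma sphValues_nonempty (f : ℝ → ℝ) (α : ℝ) : (sphValues f α).Nonempty :=
  ⟨_, 0, fun _ => 0, fun _ => 0,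
    ⟨rfl, fun i j h => absurd h (by have := i.isLt; have := j.isLt; omega), fun _ => zero_lt_one⟩,
    ⟨monotone_const, fun _ => le_rfl, fun _ => zero_lt_one⟩, rfl⟩

/-- The pressure is at least minus the density times the bound. -/
lemma neg_le_spherePressure (hf : Pot f B) (hα : 0 ≤ α) {N : ℕ} (hN : 1 ≤ N) :
    -(α * B) ≤ spherePressure f N ⌊α * N⌋₊ := by
  have := isProbabilityMeasure_sphereMeasure hN
  have hN0 : (0 : ℝ) < N := by exact_mod_cast hN
  have hM : (⌊α * N⌋₊ : ℝ) * B ≤ α * N * B :=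
    mul_le_mul_of_nonneg_right (Nat.floor_le (by positivity)) hf.nonneg
  rw [spherePressure_eq hN, le_div_iff₀ hN0]
  refine le_trans ?_ (integral_mono (integrable_const (-((⌊α * N⌋₊ : ℝ) * B)))
    (integrable_log_sZ hf.meas hf.bound ⌊α * N⌋₊) fun g => ?_)
  · rw [integral_const, probReal_univ, one_smul]
    linarith
  · rw [Real.le_log_iff_exp_le (sZ_pos hf.meas hf.bound g)]
    exact (sZ_mem hf.meas hf.bound g).1

/-- Moving the potential costs the density times its mean change. -/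
lemma spherePressure_le_add (hf : Pot f B) (hg : Pot g B) (hα : 0 ≤ α) {N : ℕ} (hN : 1 ≤ N) :
    spherePressure g N ⌊α * N⌋₊ ≤ spherePressure f N ⌊α * N⌋₊ +
      α * (Real.exp (2 * B) * ∫ x, |f x - g x| ∂gaussianReal 0 1) := by
  have := isProbabilityMeasure_sphereMeasure hN
  have hN0 : (0 : ℝ) < N := by exact_mod_cast hN
  refine (spherePressure_stable hf.meas hf.bound hg.meas hg.bound hN _).trans (add_le_add le_rfl ?_)
  refine mul_le_mul_of_nonneg_right ?_
    (mul_nonneg (Real.exp_pos _).le (integral_nonneg fun x => abs_nonneg _))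
  rw [div_le_iff₀ hN0]
  exact Nat.floor_le (by positivity)

/-- The pressure on the sphere converges to the variational formula. -/
theorem sph_formula {f : ℝ → ℝ} (hf : Measurable f) (hfb : ∃ B, ∀ x, |f x| ≤ B) {α : ℝ}
    (hα : 0 < α) :
    ∃ v, Tendsto (fun N : ℕ => spherePressure f N ⌊α * N⌋₊) atTop (𝓝 v) ∧
      IsGLB (sphValues f α) v := by
  obtain ⟨B, hB⟩ := hfb
  have hP : Pot f B := ⟨hf, hB⟩
  set E := Real.exp (2 * B)
  have hE : 0 < E := Real.exp_pos _
  -- a flat smooth potential whose values and pressures are within `δ`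
  have happ : ∀ δ, 0 < δ → ∃ g, Sft g ∧ Pot g B ∧
      (∀ (k : ℕ) (m p : Fin (k + 1) → ℝ), Levels m → Path p →
        |α * patVal f m p - α * patVal g m p| ≤ δ) ∧
      ∀ N : ℕ, 1 ≤ N → |spherePressure f N ⌊α * N⌋₊ - spherePressure g N ⌊α * N⌋₊| ≤ δ := by
    intro δ hδ
    obtain ⟨g, hg, hgP, hint⟩ := exists_sft hP (show 0 < δ / (α * E) by positivity)
    have hle : α * (E * ∫ x, |f x - g x| ∂gaussianReal 0 1) ≤ δ := by
      refine (mul_le_mul_of_nonneg_left (mul_le_mul_of_nonneg_left hint hE.le) hα.le).trans_eq ?_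
      field_simp
    have hsym : ∫ x, |g x - f x| ∂gaussianReal 0 1 = ∫ x, |f x - g x| ∂gaussianReal 0 1 :=
      integral_congr_ae (Eventually.of_forall fun x => abs_sub_comm _ _)
    refine ⟨g, hg, hgP, fun k m p hm hp => ?_, fun N hN => abs_le.2 ⟨?_, ?_⟩⟩
    · rw [← mul_sub, abs_mul, abs_of_pos hα]
      exact (mul_le_mul_of_nonneg_left (abs_patVal_stable hP hgP hm hp) hα.le).trans hle
    · linarith [spherePressure_le_add hP hgP hα.le hN]
    · have := spherePressure_le_add hgP hP hα.le hN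
      rw [hsym] at this
      linarith
  have hbdd : BddBelow (sphValues f α) := by
    obtain ⟨g, hg, hgP, hval, -⟩ := happ 1 one_pos
    refine ⟨-(α * B) - 2, ?_⟩
    rintro _ ⟨k, m, p, hm, hp, rfl⟩
    obtain ⟨N, hN, hN1⟩ := ((sph_upper hg.smf hα hm hp one_pos).and (eventually_ge_atTop 1)).exists
    linarith [neg_le_spherePressure hgP hα.le hN1, (abs_le.1 (hval k m p hm hp)).1]
  set I := sInf (sphValues f α) with hI
  have hglb : IsGLB (sphValues f α) I := isGLB_csInf (sphValues_nonempty f α) hbdd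
  refine ⟨I, Metric.tendsto_atTop.2 fun ε hε => ?_, hglb⟩
  obtain ⟨g, hg, hgP, hval, hpr⟩ := happ (ε / 6) (by linarith)
  obtain ⟨v, ⟨k, m, p, hm, hp, rfl⟩, hv⟩ :=
    exists_lt_of_csInf_lt (sphValues_nonempty f α) (lt_add_of_pos_right I (show 0 < ε / 6 by linarith))
  have hlow : ∀ v ∈ sphValues g α, I - ε / 6 ≤ v := by
    rintro _ ⟨k', m', p', hm', hp', rfl⟩
    linarith [csInf_le hbdd ⟨k', m', p', hm', hp', rfl⟩, (abs_le.1 (hval k' m' p' hm' hp')).2]
  obtain ⟨N0, hN0⟩ := eventually_atTop.1 (((sph_upper hg.smf hα hm hp (show 0 < ε / 6 by linarith)).and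
    (sph_lower hg.smf hα hlow (show 0 < ε / 6 by linarith))).and (eventually_ge_atTop 1))
  refine ⟨N0, fun N hN => ?_⟩
  obtain ⟨⟨h1, h2⟩, h3⟩ := hN0 N hN
  obtain ⟨h4, h5⟩ := abs_le.1 (hpr N h3)
  obtain ⟨h6, h7⟩ := abs_le.1 (hval k m p hm hp)
  rw [Real.dist_eq, abs_lt]
  constructor <;> linarith

end Vale.Agent.P157F
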