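import Vale.Agent.P157F.Sph.Conf
import Vale.Agent.P157F.Up.Run
import Vale.Agent.P157.Low.CavityGain

/-!
P157: the upper bound on the sphere.
-/

namespace Vale.Agent.P157F

open MeasureTheory Filter
open scoped Topology
open Vale.Agent.P157 (spherePressure Pot)
open Vale.Agent.P157.Low (Smf qmult lv incr exists_pot)
open Vale.Agent.P166F (Levels Path fieldPaths pairing rgrid rgrid_bounds)

variable {k : ℕ}

/-- The multiplier of `exists_sphFree_le` grows at most linearly in the largest variance. -/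
lemma qmult_bound {m r : Fin (k + 1) → ℝ} (hm : Levels m) (hr : r ∈ fieldPaths k) (z A : ℝ)
    (h : qmult m (incr r) (lv k) z ≤ A) : z ≤ A + r (Fin.last k) := by
  have hd : ∀ i ∈ lv k, m i ≤ 1 ∧ 0 ≤ incr r i := fun i _ =>
    ⟨(hm.ltOne i).le, incr_nonneg hr.1 hr.2 i⟩
  have h1 := Vale.Agent.P157.Low.le_qmult m (incr r) hd z
  have h2 := Vale.Agent.P157.Low.sum_lv_incr r
  have h3 := hr.2 0
  linarith

/-- Every overlap path bounds the pressure from above. -/
theorem sph_upper {f : ℝ → ℝ} (hs : Smf f) {α : ℝ} (hα : 0 < α) {m p : Fin (k + 1) → ℝ}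
    (hm : Levels m) (hp : Path p) {η : ℝ} (hη : 0 < η) :
    ∀ᶠ N : ℕ in atTop, spherePressure f N ⌊α * N⌋₊ ≤ α * patVal f m p + sphEnt m p + η := by
  obtain ⟨B, hf⟩ := exists_pot hs
  obtain ⟨D, hD0, hD⟩ := Smf_lip hs
  obtain ⟨A, ν, hν, hsf⟩ := exists_sphFree_le hm hp (show 0 < η / 4 by positivity)
  classical
  choose z hz hW hA hle using hsf
  set X : (Fin (k + 1) → ℝ) → ℝ := fun r =>
    if h : r ∈ fieldPaths k then sphFree m r (z r h) + η / 4 else 0
  set E := sphEnt m p + η / 2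
  set L := max 0 ((E + 2 * α * B + 3) / ν)
  have hX : ∀ r ∈ fieldPaths k, X r - r (Fin.last k) / 2 + pairing m p r ≤ E - ν * r (Fin.last k) :=
    fun r hr => by
      simp only [X, dif_pos hr, E]
      linarith [hle r hr]
  have key := Up.upper_conf hs hf hα hm hp sphConf (X := X) (E := E) (L := L) (le_max_left _ _)
    (by
      filter_upwards [nestRoot_sphConf_le (k := k) (Z := A + (L + 2)) (show 0 < η / 4 by positivity)]
        with N hN r hr
      obtain ⟨hmono, hb⟩ := rgrid_bounds (le_max_left _ _) hr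
      have hrf : r ∈ fieldPaths k := ⟨hmono, fun l => (hb l).1⟩
      simp only [X, dif_pos hrf]
      refine hN m r hm hmono (fun l => (hb l).1) _ (hz r hrf) ?_ (hW r hrf)
      exact (qmult_bound hm hrf _ A (hA r hrf)).trans (by linarith [(hb (Fin.last k)).2]))
    (fun r hr => (hX r hr).trans (by linarith [mul_nonneg hν.le (hr.2 (Fin.last k))]))
    (fun r hr hL => by
      have h1 := mul_le_mul_of_nonneg_left (hL.trans' (le_max_right _ _)) hν.le
      rw [mul_div_cancel₀ _ hν.ne'] at h1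
      linarith [hX r hr])
    (show 0 < η / 4 by positivity)
  have herr : Tendsto (fun N : ℕ => sphMesh N * (D * (α * ((N : ℝ) + 1)) + 1) * ((N : ℝ) + 2) /
      ((N : ℝ) + 1)) atTop (𝓝 0) := by
    refine squeeze_zero (fun N => by have := (sphMesh_pos N).le; positivity)
      (g := fun N : ℕ => 2 * (D * α + 1) * (1 / ((N : ℝ) + 1))) (fun N => ?_) ?_
    · have hN : (1 : ℝ) ≤ (N : ℝ) + 1 := by linarith [Nat.cast_nonneg (α := ℝ) N]
      rw [sphMesh, div_le_iff₀ (by linarith), mul_assoc, inv_mul_le_iff₀ (by positivity)]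
      have h1 : D * (α * ((N : ℝ) + 1)) + 1 ≤ (D * α + 1) * ((N : ℝ) + 1) := by nlinarith
      have h2 : (N : ℝ) + 2 ≤ 2 * ((N : ℝ) + 1) := by linarith
      calc (D * (α * ((N : ℝ) + 1)) + 1) * ((N : ℝ) + 2)
          ≤ (D * α + 1) * ((N : ℝ) + 1) * (2 * ((N : ℝ) + 1)) :=
            mul_le_mul h1 h2 (by positivity) (by positivity)
        _ = _ := by field_simp
    · simpa using (tendsto_one_div_add_atTop_nhds_zero_nat (𝕜 := ℝ)).const_mul (2 * (D * α + 1))
  have hev : ∀ᶠ N : ℕ in atTop, spherePressure f (N + 1) ⌊α * ((N : ℝ) + 1)⌋₊ ≤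
      α * patVal f m p + sphEnt m p + η := by
    filter_upwards [key, herr.eventually (gt_mem_nhds (show 0 < η / 4 by positivity))] with N h1 h2
    refine (spherePressure_le_conf hf hD0 hD N _).trans ?_
    have hfl : ((⌊α * ((N : ℝ) + 1)⌋₊ : ℕ) : ℝ) ≤ α * ((N : ℝ) + 1) := Nat.floor_le (by positivity)
    have h3 : sphMesh N * (D * (⌊α * ((N : ℝ) + 1)⌋₊ : ℕ) + 1) * ((N : ℝ) + 2) / ((N : ℝ) + 1) ≤
        sphMesh N * (D * (α * ((N : ℝ) + 1)) + 1) * ((N : ℝ) + 2) / ((N : ℝ) + 1) := by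
      have := (sphMesh_pos N).le
      gcongr
    simp only [E] at h1
    linarith
  filter_upwards [(tendsto_sub_atTop_nat 1).eventually hev, eventually_ge_atTop 1] with N hN h1
  rwa [show N - 1 + 1 = N by omega, show ((N - 1 : ℕ) : ℝ) + 1 = N by rw [Nat.cast_sub h1]; push_cast; ring] at hN

end Vale.Agent.P157F
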